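import Vale.Agent.P167.XDL.Strand

/-!
# P167, block XDL: the cut polygon

For the domain `D` of a lattice polygon `q`, all medial edges across the polygon cut, in-phases
`(π/12) u k + K` (`u k`: lifted direction of the side `k`, base point `q 0`) and a flow `c` in the interior of
`D`, the product `Xc` of the loops and the strands is a power of `√3` times `XD D (q 0) (dv c)` times the
product over the strands outside `D`.
-/

namespace Vale.Agent.P167.XDL

open Finset
open Vale.Agent.P167.A (plane plane_nx plane_hd plane_sg)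
open Vale.Agent.P167.H199 (cang strand ret ah at' hb Xc loop_nx)
open Vale.Agent.P167.E6 (IsPolygon Encloses dir face)
open Vale.Agent.P167.E2 (ro ro_spec)
open Vale.Agent.P167.H871 (Bd P4 P4_inj M4 M4_eq bd_cross strand_turn)
open Vale.Agent.P167.H685 (plane_turn)
open Vale.Agent.P167.Top (vec dx dy)
open Vale.Agent.P167.BR
open Vale.Agent.P167.H825 (dv)

variable {n : ℕ} {q : ZMod n → ℤ × ℤ} {D : Finset (ℤ × ℤ)} {u : ℕ → ℤ} {a : Ed → Bool → ℝ}
  {c : Ed → ℝ} {K : ℝ} {ω : Cfg}

/-- The phases are the phases of the polygon on the inner side of the cuts and the flow `c` off the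
cuts. -/
structure Gau (q : ZMod n → ℤ × ℤ) (D : Finset (ℤ × ℤ)) (u : ℕ → ℤ) (a : Ed → Bool → ℝ)
    (c : Ed → ℝ) (K : ℝ) : Prop where
  hd : ∀ k < n, hdv (be q (k : ZMod n)) ∈ D → ah plane a (be q (k : ZMod n)) =
    Real.pi / 12 * u k + K
  tl : ∀ k < n, tlv (be q (k : ZMod n)) ∈ D → at' plane a (be q (k : ZMod n)) =
    -(Real.pi / 12 * u k + K)
  off : ∀ e ∉ bS D, a e false + a e true = c e
  sup : ∀ e, c e ≠ 0 → hdv e ∈ D ∧ tlv e ∈ D

/-- The midpoint of `be q k`. -/
theorem P4_be (hq : IsPolygon q) (hu : Bd (D : Set (ℤ × ℤ)) n (fun k => q (k : ZMod n)) u 1)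
    (k : ℕ) : P4 (be q (k : ZMod n)) = M4 (q (k : ZMod n)) (u k) := by
  have h1 := hu.step k
  have h2 := ro_spec hq (k : ZMod n)
  simp only [Nat.cast_succ] at h1
  rw [h1] at h2
  have h3 : vec (u k) = dir (ro q (k : ZMod n)) := add_left_cancel h2
  rw [M4_eq, be]
  have h4 : dx (u k) = (dir (ro q (k : ZMod n))).1 := by rw [← h3]; rfl
  have h5 : dy (u k) = (dir (ro q (k : ZMod n))).2 := by rw [← h3]; rfl
  rw [h4, h5]
  obtain ⟨x, y⟩ := q (k : ZMod n)
  generalize ro q (k : ZMod n) = r
  fin_cases r <;> simp [ce, P4, me, dir] <;> constructor <;> ring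

theorem exists_idx (hq : IsPolygon q) (hD : Encloses q D)
    (hu : Bd (D : Set (ℤ × ℤ)) n (fun k => q (k : ZMod n)) u 1) {e : Ed} (he : e ∈ bS D) :
    ∃ k < n, e = be q (k : ZMod n) := by
  obtain ⟨k, hk, h⟩ := bd_cross hq hD hu (g := e) (by rw [mem_bS] at he; tauto)
  exact ⟨k, hk, P4_inj (h.trans (P4_be hq hu k).symm)⟩

theorem be_ne (hq : IsPolygon q) {i j : ℕ} (hi : i < n) (hj : j < n) (h : i ≠ j) :
    be q (i : ZMod n) ≠ be q (j : ZMod n) := by
  intro h'
  have h1 := be_injective hq h'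
  rw [ZMod.natCast_eq_natCast_iff] at h1
  exact h (Nat.ModEq.eq_of_lt_of_lt h1 hi hj)

/-- **The factor of a strand of `D`.** -/
theorem cos_strand (hq : IsPolygon q) (hD : Encloses q D)
    (hu : Bd (D : Set (ℤ × ℤ)) n (fun k => q (k : ZMod n)) u 1) (hg : Gau q D u a c K) {e : Ed}
    (h1 : hdv e ∈ D) (h2 : tlv e ∉ D) :
    2 * Real.cos (cang plane (Real.pi / 3) a ω (strand (nx ω) (bS D) e)) =
      √3 * wp D (piece ω D e) (mass D (q 0) (dv c) (piece ω D e)) := by
  classical
  obtain ⟨m, hm, hr, hin, hx, hn, hp⟩ := strand_in (ω := ω) h1 h2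
  rw [cang_in hg.off hg.sup h1 h2 hm hr hx hn hp]
  have he : e ∈ eds D := mem_eds.2 (Or.inl h1)
  have hA := piece_mem_pcs (ω := ω) he
  have heA := self_mem_piece (ω := ω) he
  have hxA : (nx ω)^[m] e ∈ piece ω D e := by rw [hp]; exact mem_insert_self _ _
  have hnl : ¬ IsLp D (piece ω D e) := fun h => h2 (h.tl hA heA)
  have htx : tlv ((nx ω)^[m] e) ∈ D := by
    obtain ⟨j, rfl⟩ : ∃ j, m = j + 1 := ⟨m - 1, by omega⟩
    rw [Function.iterate_succ_apply', tlv_nx]
    exact hin j (by omega)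
  have hent : ∀ y ∈ piece ω D e, y ∈ bS D → y = e ∨ y = (nx ω)^[m] e := by
    intro y hy hyS
    rw [mem_bS] at hyS
    rcases hyS with ⟨_, h⟩ | ⟨h, _⟩
    · exact Or.inl (entry_unique hA hy heA h h2)
    · exact Or.inr (exit_unique hA hy hxA h hx)
  obtain ⟨i, hi, hei⟩ := exists_idx hq hD hu (mem_bS.2 (Or.inl ⟨h1, h2⟩))
  obtain ⟨j, hj, hej⟩ := exists_idx hq hD hu (mem_bS.2 (Or.inr ⟨hx, htx⟩))
  have hturn := strand_turn hu (ω := ω) (e := e) hm hi hj (by rw [hei]; exact P4_be hq hu i)
    (by rw [hej]; exact P4_be hq hu j) hin h2 hx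
  obtain ⟨hij, hT⟩ := hturn
  rw [hT]
  have g1 : ah plane a e = Real.pi / 12 * u i + K := by
    rw [hei]; exact hg.hd i hi (by rw [← hei]; exact h1)
  have g2 : at' plane a ((nx ω)^[m] e) = -(Real.pi / 12 * u j + K) := by
    rw [hej]; exact hg.tl j hj (by rw [← hej]; exact htx)
  rw [g1, g2]
  -- the potential
  obtain ⟨w, hw⟩ := exists_pot hq hD hA
  obtain ⟨κ, hκ1, hκ2⟩ := pot_two hq hD hA hw
  have hc0 : ∀ e ∉ eds D, c e = 0 := fun y hy => by
    by_contra h
    exact hy (mem_eds.2 (Or.inl (hg.sup y h).1))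
  have hF := flow_piece (subset_eds hA) hw hc0 (w (q 0))
  rw [hF]
  obtain ⟨m1, m2⟩ := mass_pot hq hD hw hκ2 (dv c)
  have hbd : ∀ k : ℕ, be q (k : ZMod n) ∈ bS D := fun k => by
    rw [mem_bS]
    rcases be_bd hq hD (k : ZMod n) with h | h
    · exact Or.inl h
    · exact Or.inr h.symm
  have hnot : ∀ k < n, k ≠ i → k ≠ j → be q (k : ZMod n) ∉ piece ω D e := by
    intro k hk hki hkj hmem
    rcases hent _ hmem (hbd k) with h | h
    · exact be_ne hq hk hi hki (h.trans hei)
    · exact be_ne hq hk hj hkj (h.trans hej)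
  have hsi : ls e = q (i : ZMod n) := by
    have h3 : Even ((q (i : ZMod n)).1 + (q (i : ZMod n)).2) := by
      by_contra h
      obtain ⟨_, _, _, h4⟩ := be_odd hq hD h
      rw [← hei] at h4
      exact h4 h1
    rw [hei]; exact (be_even hq hD h3).1
  have hsj : rs ((nx ω)^[m] e) = q (j : ZMod n) := by
    have h3 : ¬ Even ((q (j : ZMod n)).1 + (q (j : ZMod n)).2) := by
      intro h
      obtain ⟨_, _, h4, _⟩ := be_even hq hD h
      rw [← hej] at h4
      exact hx h4
    rw [hej]; exact (be_odd hq hD h3).1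
  have hws : wp D (piece ω D e) (mass D (q 0) (dv c) (piece ω D e)) =
      Real.cos (Real.pi / 6 + mass D (q 0) (dv c) (piece ω D e)) / (√3 / 2) := by
    unfold wp ws
    rw [if_neg hnl, Real.cos_pi_div_six]
  rw [hws]
  have h3 : (√3 : ℝ) ≠ 0 := by positivity
  have hfin : ∀ x : ℝ, √3 * (x / (√3 / 2)) = 2 * x := fun x => by field_simp
  rw [hfin]
  congr 1
  rcases Nat.lt_or_ge i j with hlt | hge
  · have hq0 : w (q 0) = κ + 1 := by
      have h4 := pot_arc hq hD hw (Nat.zero_le i) (fun k _ hk => hnot k (by omega) (by omega)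
        (by omega))
      rw [Nat.cast_zero] at h4
      rw [← h4, ← hsi]
      exact (hκ1 e heA).2
    rw [m2 hq0, if_pos hlt]
    rw [← Real.cos_neg]
    congr 1
    push_cast
    ring
  · have hq0 : w (q 0) = κ := by
      have h4 := pot_arc hq hD hw (Nat.zero_le j) (fun k _ hk => hnot k (by omega) (by omega)
        (by omega))
      rw [Nat.cast_zero] at h4
      rw [← h4, ← hsj]
      exact (hκ1 _ hxA).1
    rw [m1 hq0, if_neg (by omega)]
    congr 1
    push_cast
    ring

/-! ### loops -/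

theorem lp_disj {A : Finset Ed} (hA : A ∈ pcs ω D) (hl : IsLp D A) : Disjoint A (bS D) := by
  rw [Finset.disjoint_left]
  intro e he heS
  rw [mem_bS] at heS
  rcases heS with ⟨_, h⟩ | ⟨h, _⟩
  · exact h (hl.tl hA he)
  · exact h (hl e he)

/-- The winding number of a loop of `D` around the base point vanishes. -/
theorem W_base (hq : IsPolygon q) (hD : Encloses q D) {A : Finset Ed} (hA : A ∈ pcs ω D)
    (hl : IsLp D A) : W A (q 0) = 0 := by
  have hn0 : NeZero n := ⟨by have := hq.1; omega⟩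
  have hloop := hl.isLoop hA
  have hpot : PotD D A (W A) := fun e _ => s_jump ω A hloop e
  have hbe : ∀ i, be q i ∉ A := by
    intro i hi
    have h := Finset.disjoint_left.1 (lp_disj hA hl) hi
    rw [mem_bS] at h
    have := be_bd hq hD i
    tauto
  have hc : ∀ i : ZMod n, W A (q i) = W A (q 0) := by
    intro i
    have := pot_arc hq hD hpot (Nat.zero_le i.val) (fun k _ _ => hbe _)
    rw [Nat.cast_zero, ZMod.natCast_zmod_val] at this
    exact this
  obtain ⟨e, he⟩ := pcs_nonempty hA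
  obtain ⟨v, hv, hmax⟩ := D.exists_max_image Prod.fst ⟨_, hl e he⟩
  have hnot : (v.1 + 1, v.2) ∉ D := fun h => by
    have := hmax _ h
    simp only at this
    omega
  obtain ⟨i, hi, -⟩ := (hD (v.1 + 1, v.2) 1).2 ⟨by
    have : face (v.1 + 1, v.2) 1 = v := by simp [face]
    rw [this]; exact hv, by
    have : face (v.1 + 1, v.2) (1 - 1) = (v.1 + 1, v.2) := by simp [face]
    rw [this]; exact hnot⟩
  rw [← hc i, hi]
  apply W_zero_right
  intro v' hv' _
  simp only
  have h1 := hl _ hv'
  have h2 := hl.tl hA hv'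
  by_cases hp : Even (v'.1 + v'.2)
  · simp only [hdv, hp, if_true] at h1
    have := hmax _ h1
    omega
  · simp only [tlv, hp, if_false] at h2
    have := hmax _ h2
    omega

/-- The angle of a loop. -/
theorem cang_loop {A : Finset Ed} (h : IsLoop ω A) {a : Ed → Bool → ℝ} {c : Ed → ℝ}
    (hoff : ∀ e ∈ A, a e false + a e true = c e) :
    cang plane (Real.pi / 3) a ω A = Real.pi / 12 * ((∑ x ∈ A, trn ω x : ℤ) : ℝ) +
      ∑ x ∈ A, c x * sg x := by
  unfold cang
  rw [sum_add_distrib, sum_add_distrib]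
  have e1 : ∑ x ∈ A, Real.pi / 3 / 4 * ((plane.turn ω x : ℤ) : ℝ) =
      Real.pi / 12 * ((∑ x ∈ A, trn ω x : ℤ) : ℝ) := by
    simp only [plane_turn]
    rw [← mul_sum, Int.cast_sum]
    congr 1
    ring
  have e2 : ∑ x ∈ A, at' plane a (plane.nx ω x) = ∑ x ∈ A, at' plane a x := by
    simp only [plane_nx]
    have himg : A.image (nx ω) = A := by
      apply eq_of_subset_of_card_le
      · intro y hy
        obtain ⟨x, hx, rfl⟩ := mem_image.1 hy
        exact loop_nx h hx
      · rw [card_image_of_injective _ (s_nx ω).1]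
    conv_rhs => rw [← himg, sum_image (fun x _ y _ hxy => (s_nx ω).1 hxy)]
  rw [e1, e2, add_assoc, ← sum_add_distrib]
  congr 1
  exact sum_congr rfl fun x hx => by rw [ah_add_at, hoff x hx]

/-- **The factor of a loop of `D`.** -/
theorem cos_loop (hq : IsPolygon q) (hD : Encloses q D) (hg : Gau q D u a c K) {A : Finset Ed}
    (hA : A ∈ pcs ω D) (hl : IsLp D A) :
    2 * Real.cos (cang plane (Real.pi / 3) a ω A) = wp D A (mass D (q 0) (dv c) A) := by
  classical
  have hloop := hl.isLoop hA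
  have hpot : PotD D A (W A) := fun e _ => s_jump ω A hloop e
  have hoff : ∀ e ∈ A, a e false + a e true = c e := fun e he =>
    hg.off e fun h => Finset.disjoint_left.1 (lp_disj hA hl) he h
  have hc0 : ∀ e ∉ eds D, c e = 0 := fun y hy => by
    by_contra h
    exact hy (mem_eds.2 (Or.inl (hg.sup y h).1))
  rw [cang_loop hloop hoff, flow_piece (subset_eds hA) hpot hc0 (W A (q 0))]
  have hw0 := W_base hq hD hA hl
  have hwl : wp D A (mass D (q 0) (dv c) A) =
      2 * Real.cos (Real.pi / 3 + mass D (q 0) (dv c) A) := by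
    unfold wp wl
    rw [if_pos hl, Real.cos_pi_div_three]
    ring
  rw [hwl]
  congr 1
  rcases turn_loop hloop with ⟨h1, h2⟩ | ⟨h1, h2⟩
  · obtain ⟨m1, -⟩ := mass_pot hq hD hpot (κ := 0) (fun z _ => by simpa using h2 z) (dv c)
    rw [m1 hw0, h1]
    congr 1
    push_cast
    ring
  · obtain ⟨-, m2⟩ := mass_pot hq hD hpot (κ := -1) (fun z _ => by
      rcases h2 z with h | h
      · exact Or.inr (by rw [h]; norm_num)
      · exact Or.inl h) (dv c)
    rw [m2 (by rw [hw0]; norm_num), h1, ← Real.cos_neg]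
    congr 1
    push_cast
    ring

/-- A loop which does not meet the boundary is a loop of `D` or lies outside. -/
theorem loop_cases {A : Finset Ed} (h : IsLoop ω A) (hd : Disjoint A (bS D)) :
    (A ∈ pcs ω D ∧ IsLp D A) ∨ ∀ e ∈ A, e ∉ eds D := by
  by_cases hex : ∃ e ∈ A, e ∈ eds D
  swap
  · right
    intro e he heD
    exact hex ⟨e, he, heD⟩
  left
  have hns : ∀ e ∈ A, e ∉ bS D := fun e he => Finset.disjoint_left.1 hd he
  obtain ⟨e, he, heD⟩ := hex
  have hboth : ∀ x ∈ A, x ∈ eds D → hdv x ∈ D ∧ tlv x ∈ D := by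
    intro x hx hxD
    have := hns x hx
    rw [mem_bS] at this
    rw [mem_eds] at hxD
    tauto
  have hit : ∀ k : ℕ, hdv ((nx ω)^[k] e) ∈ D := by
    intro k
    induction k with
    | zero => exact (hboth e he heD).1
    | succ k ih =>
      rw [Function.iterate_succ_apply']
      exact (hboth _ (loop_nx h (H199.loop_iter h he k)) (nx_mem_eds ih)).1
  have hAe : A = piece ω D e := by
    ext x
    rw [mem_piece, eqvGen_iff]
    constructor
    · intro hx
      obtain ⟨k, rfl⟩ := (H685.loop_gen h he x).1 hx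
      refine ⟨?_, k, Or.inl ⟨rfl, fun j _ => hit j⟩⟩
      exact mem_eds.2 (Or.inl (hit k))
    · rintro ⟨-, k, hk | hk⟩
      · exact (H685.loop_gen h he x).2 ⟨k, hk.1⟩
      · obtain ⟨f, hf⟩ := h
        rw [hf] at he ⊢
        obtain ⟨m, hm⟩ := he
        have hfA : f ∈ A := (hf f).2 ⟨0, rfl⟩
        -- `e` is an iterate of `x`; the orbit of `e` is periodic
        have hper : ∃ N, k ≤ N ∧ (nx ω)^[N] e = e := by
          have hinf : ¬ Function.Injective fun j : ℕ => (⟨(nx ω)^[j] e,
              H199.loop_iter ⟨f, hf⟩ ((hf e).2 ⟨m, hm⟩) j⟩ : A) := not_injective_infinite_finite _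
          rw [Function.Injective] at hinf
          push Not at hinf
          obtain ⟨j, j', hjj, hne⟩ := hinf
          have hjj' : (nx ω)^[j] e = (nx ω)^[j'] e := congrArg Subtype.val hjj
          obtain ⟨P, hP, hPe⟩ : ∃ P, 1 ≤ P ∧ (nx ω)^[P] e = e := by
            rcases lt_trichotomy j j' with h1 | h1 | h1
            · refine ⟨j' - j, by omega, ?_⟩
              apply (s_nx ω).1.iterate j
              rw [← Function.iterate_add_apply, show j + (j' - j) = j' by omega]
              exact hjj'.symm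
            · exact absurd h1 hne
            · refine ⟨j - j', by omega, ?_⟩
              apply (s_nx ω).1.iterate j'
              rw [← Function.iterate_add_apply, show j' + (j - j') = j by omega]
              exact hjj'
          have hmul : ∀ t : ℕ, (nx ω)^[P * t] e = e := by
            intro t
            induction t with
            | zero => simp
            | succ t ih => rw [Nat.mul_succ, Function.iterate_add_apply, hPe, ih]
          exact ⟨P * k, Nat.le_mul_of_pos_left k (by omega), hmul k⟩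
        obtain ⟨N, hN, hNe⟩ := hper
        refine ⟨N - k + m, ?_⟩
        apply (s_nx ω).1.iterate k
        rw [Function.iterate_add_apply, hm, ← Function.iterate_add_apply,
          show k + (N - k) = N by omega, hNe, hk.1]
  have hA : A ∈ pcs ω D := by rw [hAe]; exact piece_mem_pcs heD
  refine ⟨hA, fun x hx => ?_⟩
  obtain ⟨k, rfl⟩ := (H685.loop_gen h he x).1 hx
  exact hit k

/-- **The cut polygon.** -/
theorem xdl (hq : IsPolygon q) (hD : Encloses q D)
    (hu : Bd (D : Set (ℤ × ℤ)) n (fun k => q (k : ZMod n)) u 1) (hg : Gau q D u a c K) (ω : Cfg) :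
    Xc (bS D) a ω = √3 ^ ((bS D).filter fun e => hdv e ∈ D).card *
      XD D (q 0) (dv c) ω * Xout D a ω := by
  classical
  unfold Xc Xout XD
  have hloops : ∏ᶠ ℓ ∈ {ℓ : Finset Ed | IsLoop ω ℓ ∧ Disjoint ℓ (bS D)},
      2 * Real.cos (cang plane (Real.pi / 3) a ω ℓ) =
      ∏ A ∈ (pcs ω D).filter (IsLp D), wp D A (mass D (q 0) (dv c) A) := by
    rw [← prod_congr rfl (f := fun A => 2 * Real.cos (cang plane (Real.pi / 3) a ω A))
      (fun A hA => cos_loop hq hD hg (mem_filter.1 hA).1 (mem_filter.1 hA).2)]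
    apply finprod_mem_eq_prod_of_inter_mulSupport_eq
    ext ℓ
    simp only [Set.mem_inter_iff, Set.mem_ofPred_eq, Function.mem_mulSupport, mem_coe, mem_filter]
    constructor
    · rintro ⟨⟨h1, h2⟩, h3⟩
      refine ⟨?_, h3⟩
      rcases loop_cases h1 h2 with h | h
      · exact h
      · exfalso
        apply h3
        have hc0 : ∀ e ∈ ℓ, a e false + a e true = (fun _ => (0 : ℝ)) e := fun e he => by
          rw [hg.off e (Finset.disjoint_left.1 h2 he)]
          by_contra h4
          exact h e he (mem_eds.2 (Or.inl (hg.sup e h4).1))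
        rw [cang_loop h1 hc0]
        simp only [zero_mul, sum_const_zero, add_zero]
        rcases turn_loop h1 with ⟨h4, _⟩ | ⟨h4, _⟩ <;> rw [h4]
        · rw [show Real.pi / 12 * ((4 : ℤ) : ℝ) = Real.pi / 3 by push_cast; ring,
            Real.cos_pi_div_three]
          norm_num
        · rw [show Real.pi / 12 * ((-4 : ℤ) : ℝ) = -(Real.pi / 3) by push_cast; ring,
            Real.cos_neg, Real.cos_pi_div_three]
          norm_num
    · rintro ⟨⟨h1, h2⟩, h3⟩
      exact ⟨⟨h2.isLoop h1, lp_disj h1 h2⟩, h3⟩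
  have hstr : ∏ e ∈ (bS D).filter (fun e => hdv e ∈ D),
      2 * Real.cos (cang plane (Real.pi / 3) a ω (strand (nx ω) (bS D) e)) =
      √3 ^ ((bS D).filter fun e => hdv e ∈ D).card *
        ∏ A ∈ (pcs ω D).filter (fun A => ¬ IsLp D A), wp D A (mass D (q 0) (dv c) A) := by
    have hmem : ∀ e ∈ (bS D).filter (fun e => hdv e ∈ D), hdv e ∈ D ∧ tlv e ∉ D := by
      intro e he
      rw [mem_filter, mem_bS] at he
      tauto
    rw [prod_congr rfl (fun e he => cos_strand hq hD hu hg (hmem e he).1 (hmem e he).2),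
      prod_mul_distrib, prod_const]
    congr 1
    refine prod_bij (fun e _ => piece ω D e) ?_ ?_ ?_ ?_
    · intro e he
      obtain ⟨h1, h2⟩ := hmem e he
      have h3 : e ∈ eds D := mem_eds.2 (Or.inl h1)
      rw [mem_filter]
      exact ⟨piece_mem_pcs h3, fun h => h2 (h.tl (piece_mem_pcs h3) (self_mem_piece h3))⟩
    · intro e he e' he' h
      obtain ⟨h1, h2⟩ := hmem e he
      obtain ⟨h1', h2'⟩ := hmem e' he'
      have h3 : e ∈ eds D := mem_eds.2 (Or.inl h1)
      have h3' : e' ∈ eds D := mem_eds.2 (Or.inl h1')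
      refine entry_unique (piece_mem_pcs (ω := ω) h3) (self_mem_piece h3) ?_ h2 h2'
      rw [h]
      exact self_mem_piece h3'
    · intro A hA
      rw [mem_filter] at hA
      obtain ⟨e, he, h2⟩ := exists_entry hA.1 hA.2
      have h1 : hdv e ∈ D := (mem_eds.1 (subset_eds hA.1 he)).resolve_right h2
      refine ⟨e, ?_, (eq_piece_of_mem hA.1 he).symm⟩
      rw [mem_filter, mem_bS]
      exact ⟨Or.inl ⟨h1, h2⟩, h1⟩
    · intro e _
      rfl
  rw [hloops, ← prod_filter_mul_prod_filter_not (bS D) (fun e => hdv e ∈ D), hstr,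
    ← prod_filter_mul_prod_filter_not (pcs ω D) (IsLp D)]
  ring

end Vale.Agent.P167.XDL
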