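import Vale.Agent.P167.BR.Poly
import Vale.Agent.P167.BR.Join

/-!
# P167, block XDL: potentials of pieces in the domain of a polygon

The sites of the domain are connected, the potential of a piece has two values, `Sep` and `mass` in terms of
any potential.
-/

namespace Vale.Agent.P167.XDL

open Finset
open Vale.Agent.P167.E6 (IsPolygon Encloses dir face)
open Vale.Agent.P167.BR

variable {n : ℕ} {q : ZMod n → ℤ × ℤ} {D : Finset (ℤ × ℤ)} {ω : Cfg} {A : Finset Ed}

theorem ce_eq {α : Type*} {g : ℤ × ℤ → α} (hg : ∀ e ∈ eds D, g (ls e) = g (rs e)) {v : ℤ × ℤ}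
    {r : Fin 4} (h : face v r ∈ D ∨ face v (r - 1) ∈ D) : g (v + dir r) = g v := by
  have h1 := hg _ (ce_mem_eds.2 h)
  rcases ce_sides v r with ⟨h2, h3⟩ | ⟨h2, h3⟩ <;> rw [h2, h3] at h1
  · exact h1.symm
  · exact h1

theorem corners {α : Type*} {g : ℤ × ℤ → α} (hg : ∀ e ∈ eds D, g (ls e) = g (rs e)) {x y : ℤ}
    (h : (x, y) ∈ D) : g (x + 1, y) = g (x, y) ∧ g (x, y + 1) = g (x, y) ∧
      g (x + 1, y + 1) = g (x, y) := by
  have h1 := ce_eq (v := (x, y)) (r := 0) hg (Or.inl (by simpa [face] using h))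
  have h2 := ce_eq (v := (x, y)) (r := 1) hg (Or.inr (by simpa [face] using h))
  have h3 := ce_eq (v := (x, y + 1)) (r := 0) hg (Or.inr (by
    have : face (x, y + 1) (0 - 1) = (x, y) := by
      simp only [face, show (0 : Fin 4) - 1 = 3 from rfl]
      simp
    rw [this]; exact h))
  have e1 : ((x, y) : ℤ × ℤ) + dir 0 = (x + 1, y) := by simp [dir]
  have e2 : ((x, y) : ℤ × ℤ) + dir 1 = (x, y + 1) := by simp [dir]
  have e3 : ((x, y + 1) : ℤ × ℤ) + dir 0 = (x + 1, y + 1) := by simp [dir]
  rw [e1] at h1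
  rw [e2] at h2
  rw [e3] at h3
  exact ⟨h1, h2, h3.trans h2⟩

/-- To the right of every square of the domain there is a vertex of the polygon. -/
theorem exists_right (hD : Encloses q D) {α : Type*} {g : ℤ × ℤ → α}
    (hg : ∀ e ∈ eds D, g (ls e) = g (rs e)) {v : ℤ × ℤ} (hv : v ∈ D) :
    ∃ i, g v = g (q i) := by
  obtain ⟨M, hM⟩ : ∃ M : ℤ, ∀ w ∈ D, w.1 ≤ M := by
    obtain ⟨M, hM⟩ := (D.image Prod.fst).bddAbove
    exact ⟨M, fun w hw => hM (by simpa using mem_image_of_mem Prod.fst hw)⟩
  have key : ∀ (k : ℕ) (x y : ℤ), (x, y) ∈ D → M - x < k → ∃ i, g (x, y) = g (q i) := by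
    intro k
    induction k with
    | zero =>
      intro x y h h1
      have := hM _ h
      simp only at this
      push_cast at h1
      omega
    | succ k ih =>
      intro x y h h1
      obtain ⟨c1, -, -⟩ := corners hg h
      by_cases h2 : (x + 1, y) ∈ D
      · obtain ⟨i, hi⟩ := ih (x + 1) y h2 (by push_cast at h1; omega)
        exact ⟨i, by rw [← hi, c1]⟩
      · obtain ⟨i, hi, -⟩ := (hD (x + 1, y) 1).2 ⟨by
          have : face (x + 1, y) 1 = (x, y) := by simp [face]
          rw [this]; exact h, by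
          have : face (x + 1, y) (1 - 1) = (x + 1, y) := by simp [face]
          rw [this]; exact h2⟩
        exact ⟨i, by rw [hi, c1]⟩
  exact key (M - v.1).toNat.succ v.1 v.2 hv (by push_cast; omega)

theorem const_poly (hq : IsPolygon q) (hD : Encloses q D) {α : Type*} {g : ℤ × ℤ → α}
    (hg : ∀ e ∈ eds D, g (ls e) = g (rs e)) (i : ZMod n) : g (q i) = g (q 0) := by
  have hn0 : NeZero n := ⟨by have := hq.1; omega⟩
  have h1 : ∀ i : ZMod n, g (q (i + 1)) = g (q i) := by
    intro i
    have h2 := hg _ (be_mem hq hD i)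
    rcases be_sides hq i with ⟨h3, h4⟩ | ⟨h3, h4⟩ <;> rw [h3, h4] at h2
    · exact h2.symm
    · exact h2
  have h2 : ∀ k : ℕ, g (q (k : ZMod n)) = g (q 0) := by
    intro k
    induction k with
    | zero => simp
    | succ k ih =>
      push_cast
      rw [h1, ih]
  rw [← ZMod.natCast_zmod_val i]
  exact h2 _

/-- **The sites of the domain are connected.** -/
theorem const_sites (hq : IsPolygon q) (hD : Encloses q D) {α : Type*} {g : ℤ × ℤ → α}
    (hg : ∀ e ∈ eds D, g (ls e) = g (rs e)) {z : ℤ × ℤ} (hz : z ∈ sites D) : g z = g (q 0) := by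
  obtain ⟨v, hv, h1, h2⟩ := mem_sites.1 hz
  obtain ⟨i, hi⟩ := exists_right hD hg hv
  rw [const_poly hq hD hg] at hi
  obtain ⟨c1, c2, c3⟩ := corners hg (x := v.1) (y := v.2) hv
  rw [← hi]
  obtain ⟨a, b⟩ := z
  simp only at h1 h2
  rcases h1 with rfl | rfl <;> rcases h2 with rfl | rfl
  · rfl
  · exact c2
  · exact c1
  · exact c3

theorem base_mem (hq : IsPolygon q) (hD : Encloses q D) : q 0 ∈ sites D := by
  have h1 := be_mem hq hD 0
  rcases be_sides hq 0 with ⟨h2, -⟩ | ⟨h2, -⟩
  · rw [← h2]; exact ls_mem_sites h1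
  · rw [← h2]; exact rs_mem_sites h1

/-- Two potentials of the same piece differ by a constant. -/
theorem pot_unique (hq : IsPolygon q) (hD : Encloses q D) {u u' : ℤ × ℤ → ℤ} (hu : PotD D A u)
    (hu' : PotD D A u') {z : ℤ × ℤ} (hz : z ∈ sites D) : u z - u (q 0) = u' z - u' (q 0) := by
  have := const_sites hq hD (g := fun z => u z - u' z) (fun e he => by
    have h1 := hu e he
    have h2 := hu' e he
    omega) hz
  omega

theorem sep_iff (hq : IsPolygon q) (hD : Encloses q D) {u : ℤ × ℤ → ℤ} (hu : PotD D A u)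
    {z : ℤ × ℤ} (hz : z ∈ sites D) : Sep D A z (q 0) ↔ u z ≠ u (q 0) := by
  constructor
  · rintro ⟨u', hu', h⟩ h'
    have := pot_unique hq hD hu hu' hz
    omega
  · intro h
    exact ⟨u, hu, h⟩

/-- **The potential of a piece has two values.** -/
theorem pot_two (hq : IsPolygon q) (hD : Encloses q D) (hA : A ∈ pcs ω D) {u : ℤ × ℤ → ℤ}
    (hu : PotD D A u) : ∃ κ, (∀ e ∈ A, u (rs e) = κ ∧ u (ls e) = κ + 1) ∧
      ∀ z ∈ sites D, u z = κ ∨ u z = κ + 1 := by
  obtain ⟨e0, he0⟩ := pcs_nonempty hA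
  refine ⟨u (rs e0), ?_, ?_⟩
  · intro e he
    have h1 : u (rs e) = u (rs e0) := by
      have := piece_const (P := fun e => u (rs e) = u (rs e0)) hA (fun e he => ?_) he0 he
      · exact this.1 rfl
      · cases h0 : ω (hdv e) with
        | true =>
          have h2 : rs (nx ω e) = rs e := rs_nx h0
          simp only [h2]
        | false =>
          have h2 := (pot_aux hA hu he).2 h0
          simp only [h2]
    exact ⟨h1, by rw [hu.eq_add (subset_eds hA he) he, h1]⟩
  · have hval : ∀ e ∈ A, u (rs e) = u (rs e0) ∧ u (ls e) = u (rs e0) + 1 := by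
      intro e he
      have h1 : u (rs e) = u (rs e0) := by
        have := piece_const (P := fun e => u (rs e) = u (rs e0)) hA (fun e he => ?_) he0 he
        · exact this.1 rfl
        · cases h0 : ω (hdv e) with
          | true =>
            have h2 : rs (nx ω e) = rs e := rs_nx h0
            simp only [h2]
          | false =>
            have h2 := (pot_aux hA hu he).2 h0
            simp only [h2]
      exact ⟨h1, by rw [hu.eq_add (subset_eds hA he) he, h1]⟩
    set κ := u (rs e0) with hκ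
    have h1 : ∀ z ∈ sites D, u z - (if κ + 1 ≤ u z then κ + 1 else κ) =
        u (q 0) - (if κ + 1 ≤ u (q 0) then κ + 1 else κ) := by
      intro z hz
      refine const_sites hq hD (g := fun z => u z - (if κ + 1 ≤ u z then κ + 1 else κ)) ?_ hz
      intro e he
      by_cases h : e ∈ A
      · obtain ⟨h2, h3⟩ := hval e h
        simp only [h2, h3]
        split_ifs <;> omega
      · simp only [hu.eq he h]
    have h2 := h1 (rs e0) (rs_mem_sites (subset_eds hA he0))
    rw [← hκ, if_neg (by omega)] at h2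
    intro z hz
    have h3 := h1 z hz
    split_ifs at h2 h3 <;> omega

open Classical in
/-- The mass in terms of a potential. -/
theorem mass_pot (hq : IsPolygon q) (hD : Encloses q D) {u : ℤ × ℤ → ℤ}
    (hu : PotD D A u) {κ : ℤ} (hκ : ∀ z ∈ sites D, u z = κ ∨ u z = κ + 1) (f : ℤ × ℤ → ℝ) :
    (u (q 0) = κ → mass D (q 0) f A = ∑ z ∈ sites D, f z * (u z - u (q 0) : ℤ)) ∧
    (u (q 0) = κ + 1 → mass D (q 0) f A = -∑ z ∈ sites D, f z * (u z - u (q 0) : ℤ)) := by
  unfold mass
  constructor
  · intro h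
    refine sum_congr rfl fun z hz => ?_
    rw [if_congr (sep_iff hq hD hu hz) rfl rfl, h]
    rcases hκ z hz with h1 | h1 <;> rw [h1] <;> simp
  · intro h
    rw [← sum_neg_distrib]
    refine sum_congr rfl fun z hz => ?_
    rw [if_congr (sep_iff hq hD hu hz) rfl rfl, h]
    rcases hκ z hz with h1 | h1 <;> rw [h1] <;> simp

end Vale.Agent.P167.XDL
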