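import Vale.Agent.P167.XDL.Vout3
import Vale.Agent.P167.H166N.V4
import Vale.Agent.P167.H436.T1F
import Vale.Agent.P167.H199.Geox

/-!
# P167, block START, [VOUT]: the theorem
-/

namespace Vale.Agent.P167.XDL

/-- **[VOUT]** -/
theorem vout : H662.VOUT := vout_of_v4 (H166N.v4 H436.t1f H199.geox)

end Vale.Agent.P167.XDL
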