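import Vale.Agent.P167.XDL.EnlP

/-!
# P167, block XDL: the walls of the cut polygon in terms of the steps of the enlarged polygon
-/

namespace Vale.Agent.P167.Enl

open Finset
open Vale.Agent.P167.E6 (IsPolygon Encloses dir face)
open Vale.Agent.P167.H825 (dirOf tn enl pdir ptau Wall WC Marks rnd bsite sideWall pwall PW)
open Vale.Agent.P167.BR (ce be ce0 ce1 ce2 ce3 be_injective ce_even ce_odd be_bd)
open Vale.Agent.P167.E2 (ro ro_spec ro_unique)
open Vale.Agent.P167.H871 (Bd)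
open Vale.Agent.P167.H199 (hb ah at')
open Vale.Agent.P167.A (plane plane_sg)

variable {l : ℕ} {p : ZMod l → ℤ × ℤ} {n : ℕ} {S₀ : Finset (ℤ × ℤ)}

theorem ptau_l (hp : IsPolygon p) (hD : Encloses p S₀) : ptau p l = 4 := by
  have h := (bd_qN (n := 1) one_pos hp hD (t := 0) one_pos).per 0
  unfold uN at h
  simp only [Nat.div_one, zero_add, add_zero, mul_one] at h
  have h0 : ptau p 0 = 0 := rfl
  omega

/-- The step of the enlarged polygon with base point `t` which is the step `σ` of the side `i`. -/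
def kOf (l n t i σ : ℕ) : ℕ := if t ≤ i * n + σ then i * n + σ - t else l * n + (i * n + σ) - t

theorem kOf_lt {t i σ : ℕ} (hi : i < l) (hσ : σ < n) (ht : t < n) : kOf l n t i σ < l * n := by
  have h1 : (i + 1) * n ≤ l * n := Nat.mul_le_mul_right n hi
  rw [add_mul, one_mul] at h1
  unfold kOf
  split_ifs <;> omega

theorem kOf_add {t i σ : ℕ} (hi : i < l) (ht : t < n) :
    ((i * n + σ : ℕ) : ZMod (l * n)) = ((kOf l n t i σ : ℕ) : ZMod (l * n)) + (t : ZMod (l * n)) := by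
  have h1 : (i + 1) * n ≤ l * n := Nat.mul_le_mul_right n hi
  rw [add_mul, one_mul] at h1
  unfold kOf
  split_ifs with h
  · rw [← Nat.cast_add]
    congr 1
    omega
  · rw [← Nat.cast_add, Nat.sub_add_cancel (by omega), Nat.cast_add (l * n), ZMod.natCast_self,
      zero_add]

theorem kOf_div {t i σ : ℕ} (hσ : σ < n) (hi : i < l) (ht : t < n) :
    (kOf l n t i σ + t) / n = if t ≤ i * n + σ then i else l + i := by
  have hn : 0 < n := by omega
  have h1 : (i + 1) * n ≤ l * n := Nat.mul_le_mul_right n hi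
  rw [add_mul, one_mul] at h1
  unfold kOf
  split_ifs with h
  · rw [Nat.sub_add_cancel h, add_comm, Nat.add_mul_div_right _ _ hn, Nat.div_eq_of_lt hσ, zero_add]
  · rw [Nat.sub_add_cancel (by omega), show l * n + (i * n + σ) = σ + (l + i) * n by ring,
      Nat.add_mul_div_right _ _ hn, Nat.div_eq_of_lt hσ, zero_add]

/-- The medial edge of a step. -/
theorem be_kOf (hn : 0 < n) (hp : IsPolygon p) {t i σ : ℕ} (hi : i < l) (ht : t < n)
    (hσ : σ < n) : be (qN p n t) ((kOf l n t i σ : ℕ) : ZMod (l * n)) =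
      ce ((n : ℤ) • p (i : ZMod l) + (σ : ℤ) • dir (pdir p i)) (pdir p i) := by
  have : NeZero l := ⟨by omega⟩
  have h1 := kOf_add (l := l) (n := n) (σ := σ) hi ht
  have h2 := qN_succ hn hp h1
  have hd : (i * n + σ) / n = i := by
    rw [add_comm, Nat.add_mul_div_right _ _ hn, Nat.div_eq_of_lt hσ, zero_add]
  rw [hd] at h2
  have h3 := ro_unique (isPolygon_qN hn hp t) h2
  rw [be, ← h3, qN_eq hn h1, PN_lin hn hσ]

section walls

variable (p) (n) (Q : Marks) (d : ℕ)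

/-- Position of the base point. -/
noncomputable def tB : ℕ := ⌊Q.tp * n⌋₊

/-- First step of a wall. -/
noncomputable def sW (i j : ℕ) : ℕ :=
  rnd ((n : ℤ) • p i) (bsite p Q n) (⌊Q.θ i j * n⌋₊ + d)

/-- Last step of a wall. -/
noncomputable def eW (i j : ℕ) : ℕ :=
  rnd ((n : ℤ) • p i) (bsite p Q n) (⌊Q.θ i (j + 1) * n⌋₊ - d)

/-- The phase inside at the first step. -/
noncomputable def aW (i j : ℕ) : ℝ :=
  Real.pi / 12 * ptau p i + if i = 0 ∧ Q.θ 0 j < Q.tp then Real.pi / 3 else 0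

/-- The position of the jump. -/
noncomputable def oW (i j : ℕ) : Option ℕ :=
  if i = 0 ∧ Q.θ 0 j < Q.tp ∧ Q.tp < Q.θ 0 (j + 1) then some ⌊Q.tp * n⌋₊ else none

variable {p Q n d}

theorem pwall_eq (i j : ℕ) : pwall p Q n d i j = sideWall ((n : ℤ) • p i) (pdir p i)
    (sW p n Q d i j) (eW p n Q d i j) (aW p Q i j) (oW n Q i j) := rfl

theorem le_rnd (z b : ℤ × ℤ) (t : ℕ) : t ≤ rnd z b t ∧ rnd z b t ≤ t + 1 := by
  unfold rnd
  omega

theorem theta_mono (hQ : Q.Ok) (i : ℕ) {j j' : ℕ} (h : j ≤ j') (h' : j' ≤ Q.m + 1) :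
    Q.θ i j ≤ Q.θ i j' := by
  induction j', h using Nat.le_induction with
  | base => exact le_rfl
  | succ j' hj ih => exact (ih (by omega)).trans (hQ.lt i j' (by omega)).le

theorem tB_lt (hQ : Q.Ok) (hn : 0 < n) : tB n Q < n := by
  unfold tB
  rw [Nat.floor_lt (by have := hQ.tp0; positivity)]
  have h1 : (0 : ℝ) < n := by exact_mod_cast hn
  have := hQ.tp1
  nlinarith

theorem eW_le {i j : ℕ} {σ : ℕ}
    (h1 : sW p n Q d i j ≤ σ) (h2 : σ < eW p n Q d i j) : σ + d ≤ ⌊Q.θ i (j + 1) * n⌋₊ ∧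
      ⌊Q.θ i j * n⌋₊ + d ≤ σ := by
  have e1 := le_rnd ((n : ℤ) • p i) (bsite p Q n) (⌊Q.θ i j * n⌋₊ + d)
  have e2 := le_rnd ((n : ℤ) • p i) (bsite p Q n) (⌊Q.θ i (j + 1) * n⌋₊ - d)
  unfold sW at h1
  unfold eW at h2
  omega

theorem floor_theta_le (hQ : Q.Ok) (i : ℕ) {j : ℕ} (hj : j ≤ Q.m) :
    ⌊Q.θ i (j + 1) * n⌋₊ ≤ n := by
  have h1 : Q.θ i (j + 1) ≤ 1 := by
    rw [← hQ.one i]
    exact theta_mono hQ i (by omega) le_rfl
  have h2 : Q.θ i (j + 1) * n ≤ n := by
    have : (0 : ℝ) ≤ n := by positivity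
    nlinarith
  calc ⌊Q.θ i (j + 1) * n⌋₊ ≤ ⌊(n : ℝ)⌋₊ := Nat.floor_le_floor h2
    _ = n := Nat.floor_natCast n

theorem lt_n (hQ : Q.Ok) (hd : 1 ≤ d) {i j : ℕ} (hj : j ≤ Q.m) {σ : ℕ}
    (h1 : sW p n Q d i j ≤ σ) (h2 : σ < eW p n Q d i j) : σ < n := by
  have h3 := eW_le h1 h2
  have h4 := floor_theta_le (n := n) hQ i hj
  omega

/-- The phase inside at a step of a wall. -/
theorem sPh_eq (hp : IsPolygon p) (hD : Encloses p S₀) (hQ : Q.Ok) (hd : 1 ≤ d) {i j : ℕ}
    (hi : i < l) (hj : j ≤ Q.m) {σ : ℕ} (h1 : sW p n Q d i j ≤ σ) (h2 : σ < eW p n Q d i j) :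
    sPh (aW p Q i j) (oW n Q i j) σ =
      Real.pi / 12 * ptau p ((kOf l n (tB n Q) i σ + tB n Q) / n) := by
  have hσ := lt_n hQ hd hj h1 h2
  have hn : 0 < n := by omega
  have ht := tB_lt hQ hn
  obtain ⟨h3, h4⟩ := eW_le h1 h2
  rw [kOf_div hσ hi ht]
  unfold sPh aW oW
  by_cases hi0 : i = 0
  · subst hi0
    have hp0 : ptau p 0 = 0 := rfl
    have hpl := ptau_l hp hD
    rw [hp0]
    simp only [zero_mul, zero_add, true_and, add_zero, Int.cast_zero, mul_zero]
    have key : (if tB n Q ≤ σ then 0 else l) = if tB n Q ≤ σ then 0 else l := rfl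
    rcases lt_trichotomy (Q.θ 0 j) Q.tp with h5 | h5 | h5
    · rw [if_pos h5]
      by_cases h6 : Q.tp < Q.θ 0 (j + 1)
      · rw [if_pos ⟨h5, h6⟩]
        show Real.pi / 3 - (if ⌊Q.tp * n⌋₊ ≤ σ then Real.pi / 3 else 0) = _
        by_cases h7 : ⌊Q.tp * n⌋₊ ≤ σ
        · have h7' : tB n Q ≤ σ := h7
          rw [if_pos h7, if_pos h7', hp0]
          simp
        · have h7' : ¬ tB n Q ≤ σ := h7
          rw [if_neg h7, if_neg h7', hpl]
          push_cast
          ring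
      · rw [if_neg fun h => h6 h.2]
        have h7 : ⌊Q.θ 0 (j + 1) * n⌋₊ ≤ tB n Q := by
          refine Nat.floor_le_floor ?_
          push Not at h6
          exact mul_le_mul_of_nonneg_right h6 (by positivity)
        have h8 : ¬ tB n Q ≤ σ := by omega
        rw [if_neg h8, hpl]
        show Real.pi / 3 - 0 = _
        push_cast
        ring
    · exact absurd h5 (hQ.tpne j)
    · rw [if_neg (not_lt.2 h5.le), if_neg fun h => absurd h.1 (not_lt.2 h5.le)]
      have h7 : tB n Q ≤ ⌊Q.θ 0 j * n⌋₊ :=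
        Nat.floor_le_floor (mul_le_mul_of_nonneg_right h5.le (by positivity))
      have h8 : tB n Q ≤ σ := by omega
      rw [if_pos h8, hp0]
      simp
  · rw [if_neg fun h => hi0 h.1, if_neg fun h => hi0 h.1]
    have h5 : n ≤ i * n := Nat.le_mul_of_pos_left n (by omega)
    rw [if_pos (by omega)]
    show Real.pi / 12 * (ptau p i : ℝ) + 0 - 0 = _
    ring

end walls

end Vale.Agent.P167.Enl
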