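import Vale.Agent.P167.XDL.VoutDefs
import Vale.Agent.P167.H871.OutF

/-!
# P167, block START, [VOUT]: V3 from the outer factors (`H871/OutF`)
-/

namespace Vale.Agent.P167.XDL

open Finset
open Vale.Agent.P153 Vale.Agent.P153.Topo
open Vale.Agent.P167.A (plane)
open Vale.Agent.P167.H199 (cang strand ah at' hb Returns)
open Vale.Agent.P167.E6 (IsPolygon Encloses)
open Vale.Agent.P167.BR (be)
open Vale.Agent.P167.H871 (OutG out_factor out_ev bd_near)

theorem GauO.out {n : ℕ} {q : ZMod n → ℤ × ℤ} {D : Finset (ℤ × ℤ)} {u : ℕ → ℤ}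
    {a : Ed → Bool → ℝ} {K : ℝ} (h : GauO q D u a K) : OutG q D u a K := by
  refine ⟨h.hd, h.tl, fun e h1 h2 => ?_⟩
  have h3 := h.off e (by rw [mem_bS]; tauto)
  rw [ah_add_at] at h3
  have h4 : ((sg e : ℤ) : ℝ) ≠ 0 := by
    rcases e with v | v <;> simp only [sg] <;> split_ifs <;> simp
  exact (mul_eq_zero.1 h3).resolve_right h4

/-- **[V3]** -/
theorem v3 : V3 := by
  intro n q D u a K hq hD hu hg ω e he h1 hr
  rw [mem_bS] at he
  have h2 : tlv e ∈ D := by tauto
  refine ⟨?_, fun x0 R1 R2 hR h12 hω => ?_⟩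
  · rcases out_factor hq hD hu hg.out h1 h2 hr with h | h
    · exact Or.inr h
    · exact Or.inl h.1
  · have hn : NeZero n := ⟨by have := hq.1; omega⟩
    exact out_ev hq hD hu hg.out (x := x0) (R1 := R1) (R2 := R2) h12.le
      (fun k => bd_near hu (fun v hv => by have := hR v hv; omega) k) hω h1 h2

end Vale.Agent.P167.XDL
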