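import Vale.Agent.P167.XDL.Vout2
import Vale.Agent.P167.XDL.V3

/-!
# P167, block START, [VOUT]: from the lower bound of the exterior event only
-/

namespace Vale.Agent.P167.XDL

open Vale.Agent.P167.H166N (V4)
open Vale.Agent.P167.H662 (VOUT)

/-- **[VOUT]** from the lower bound of the exterior event. -/
theorem vout_of_v4 (h4 : V4) : VOUT := vout_of v3 h4

end Vale.Agent.P167.XDL
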