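import Vale.Agent.P167.H825.Defs2A
import Vale.Agent.P167.BR.Poly
import Vale.Agent.P167.H871.DomE

/-!
# P167, block XDL: the enlargement of a lattice polygon

`PN p n m` is the `m`-th site of the `n`-fold enlargement, `qN p n t` the same polygon with the base
point moved to the position `t`. It encloses `enl S₀ n`, and its lifted directions are
`r0 + ptau p ((k + t) / n)`.
-/

namespace Vale.Agent.P167.Enl

open Finset
open Vale.Agent.P167.E6 (IsPolygon Encloses dir face)
open Vale.Agent.P167.H825 (dirOf tn enl pdir ptau)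
open Vale.Agent.P167.Top (vec dx dy dx_congr dy_congr)
open Vale.Agent.P167.H871 (Bd sqL sqL_congr exists_bd vec_fin)

theorem dirOf_dir (r : Fin 4) : dirOf (dir r) = r := by
  fin_cases r <;> simp [dirOf, dir]

theorem dir0 : dir 0 = (1, 0) := rfl
theorem dir1 : dir 1 = (0, 1) := rfl
theorem dir2 : dir 2 = (-1, 0) := rfl
theorem dir3 : dir 3 = (0, -1) := rfl

section poly

variable {l : ℕ} (p : ZMod l → ℤ × ℤ) (n : ℕ)

/-- The sites of the enlargement. -/
def PN (m : ℕ) : ℤ × ℤ :=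
  (n : ℤ) • p ((m / n : ℕ) : ZMod l) + ((m % n : ℕ) : ℤ) • dir (pdir p (m / n))

/-- The enlargement with the base point at the position `t`. -/
def qN (t : ℕ) : ZMod (l * n) → ℤ × ℤ := fun k => PN p n (k.val + t)

variable {p n}

theorem pdir_add (i : ℕ) : pdir p (i + l) = pdir p i := by
  unfold pdir
  push_cast
  rw [ZMod.natCast_self, add_zero]

theorem pdir_step (hp : IsPolygon p) (i : ℕ) :
    p ((i : ZMod l) + 1) = p i + dir (pdir p i) := by
  obtain ⟨r, hr⟩ := hp.2.2 i
  unfold pdir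
  rw [hr, add_sub_cancel_left, dirOf_dir]

theorem PN_add_l (hn : 0 < n) (m : ℕ) : PN p n (m + l * n) = PN p n m := by
  unfold PN
  rw [Nat.add_mul_div_right _ _ hn, Nat.add_mul_mod_self_right, pdir_add]
  push_cast
  rw [ZMod.natCast_self, add_zero]

theorem PN_add_mul (hn : 0 < n) (m k : ℕ) : PN p n (m + l * n * k) = PN p n m := by
  induction k with
  | zero => simp
  | succ k ih => rw [Nat.mul_succ, ← add_assoc, PN_add_l hn, ih]

theorem PN_mod (hn : 0 < n) (m : ℕ) : PN p n (m % (l * n)) = PN p n m := by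
  conv_rhs => rw [← Nat.mod_add_div m (l * n)]
  rw [PN_add_mul hn]

theorem PN_congr (hn : 0 < n) {m m' : ℕ} (h : (m : ZMod (l * n)) = (m' : ZMod (l * n))) :
    PN p n m = PN p n m' := by
  rw [ZMod.natCast_eq_natCast_iff'] at h
  rw [← PN_mod hn m, h, PN_mod hn]

theorem qN_eq (hn : 0 < n) [NeZero l] {t m : ℕ} {k : ZMod (l * n)}
    (h : (m : ZMod (l * n)) = k + (t : ZMod (l * n))) : qN p n t k = PN p n m := by
  have hln : NeZero (l * n) := ⟨by have := NeZero.ne l; positivity⟩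
  refine PN_congr hn ?_
  rw [h]
  push_cast
  rw [ZMod.natCast_zmod_val]

theorem qN_nat (hn : 0 < n) [NeZero l] (t k : ℕ) :
    qN p n t (k : ZMod (l * n)) = PN p n (k + t) := qN_eq hn (by push_cast; rfl)

theorem PN_lin (hn : 0 < n) {i j : ℕ} (hj : j < n) :
    PN p n (i * n + j) = (n : ℤ) • p (i : ZMod l) + (j : ℤ) • dir (pdir p i) := by
  unfold PN
  have h1 : (i * n + j) / n = i := by
    rw [add_comm, Nat.add_mul_div_right _ _ hn, Nat.div_eq_of_lt hj, zero_add]
  have h2 : (i * n + j) % n = j := by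
    rw [add_comm, Nat.add_mul_mod_self_right, Nat.mod_eq_of_lt hj]
  rw [h1, h2]

theorem PN_succ (hn : 0 < n) (hp : IsPolygon p) (m : ℕ) :
    PN p n (m + 1) = PN p n m + dir (pdir p (m / n)) := by
  have hm := Nat.div_add_mod' m n
  have hj := Nat.mod_lt m hn
  set i := m / n
  set j := m % n
  rw [← hm, PN_lin hn hj]
  by_cases h : j + 1 < n
  · rw [add_assoc, PN_lin hn h]
    push_cast
    rw [add_smul, one_smul, add_assoc]
  · have h1 : j + 1 = n := by omega
    have h2 : i * n + j + 1 = (i + 1) * n + 0 := by rw [add_assoc, h1]; ring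
    rw [h2, PN_lin hn hn]
    push_cast
    rw [pdir_step hp, zero_smul, add_zero, smul_add, add_assoc]
    congr 1
    have h3 : (n : ℤ) = j + 1 := by omega
    rw [h3, add_smul, one_smul]

/-- Points of two sides of the enlargement. -/
theorem side_eq {n : ℕ} (hn : 0 < n) {a a' : ℤ × ℤ} {j j' : ℕ} (hj : j < n) (hj' : j' < n)
    {d d' : Fin 4} (h : (n : ℤ) • a + (j : ℤ) • dir d = (n : ℤ) • a' + (j' : ℤ) • dir d') :
    (a = a' ∧ j = j') ∨ (a' = a + dir d ∧ a = a' + dir d') := by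
  have key : ∀ X X' e : ℤ, (n : ℤ) * X = (n : ℤ) * X' + e → |e| < 2 * n →
      (X = X' ∧ e = 0) ∨ (X = X' + 1 ∧ e = n) ∨ (X = X' - 1 ∧ e = -n) := by
    intro X X' e h1 h2
    have h3 : (n : ℤ) * (X - X') = e := by rw [mul_sub]; omega
    have hn' : (0 : ℤ) < n := by exact_mod_cast hn
    rw [abs_lt] at h2
    have h4 : X - X' < 2 := by
      by_contra hc
      push Not at hc
      nlinarith
    have h5 : -2 < X - X' := by
      by_contra hc
      push Not at hc
      nlinarith
    have h6 : X - X' = 0 ∨ X - X' = 1 ∨ X - X' = -1 := by omega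
    rcases h6 with h6 | h6 | h6
    · left
      rw [h6] at h3
      omega
    · right; left
      rw [h6] at h3
      omega
    · right; right
      rw [h6] at h3
      omega
  obtain ⟨X, Y⟩ := a
  obtain ⟨X', Y'⟩ := a'
  have e1 := congrArg Prod.fst h
  have e2 := congrArg Prod.snd h
  simp only [Prod.fst_add, Prod.snd_add, Prod.smul_mk, smul_eq_mul, Prod.smul_fst,
    Prod.smul_snd] at e1 e2
  fin_cases d <;> fin_cases d' <;>
    simp only [Fin.zero_eta, Fin.mk_one, Fin.reduceFinMk, dir0, dir1, dir2, dir3, mul_one, mul_zero,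
      add_zero, mul_neg, Prod.mk.injEq, Prod.mk_add_mk] at e1 e2 ⊢ <;>
    (rcases key X X' ((n : ℤ) * X - (n : ℤ) * X') (by ring) (by rw [abs_lt]; omega) with
      ⟨h1, h2⟩ | ⟨h1, h2⟩ | ⟨h1, h2⟩ <;>
     rcases key Y Y' ((n : ℤ) * Y - (n : ℤ) * Y') (by ring) (by rw [abs_lt]; omega) with
      ⟨h3, h4⟩ | ⟨h3, h4⟩ | ⟨h3, h4⟩ <;> omega)

theorem PN_inj (hn : 0 < n) (hp : IsPolygon p) {m m' : ℕ} (h : PN p n m = PN p n m') :
    (m : ZMod (l * n)) = (m' : ZMod (l * n)) := by
  have hm := Nat.div_add_mod' m n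
  have hj := Nat.mod_lt m hn
  have hm' := Nat.div_add_mod' m' n
  have hj' := Nat.mod_lt m' hn
  set i := m / n
  set j := m % n
  set i' := m' / n
  set j' := m' % n
  rw [← hm, ← hm', PN_lin hn hj, PN_lin hn hj'] at h
  rw [← hm, ← hm']
  rcases side_eq hn hj hj' h with ⟨h1, h2⟩ | ⟨h1, h2⟩
  · have h3 := hp.2.1 h1
    rw [ZMod.natCast_eq_natCast_iff] at h3 ⊢
    rw [h2]
    exact (h3.mul_right' n).add_right j'
  · exfalso
    rw [← pdir_step hp] at h1 h2
    have h3 := hp.2.1 h1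
    have h4 := hp.2.1 h2
    have h5 : ((2 : ℕ) : ZMod l) = 0 := by
      push_cast
      linear_combination -h3 - h4
    rw [ZMod.natCast_eq_zero_iff] at h5
    have := Nat.le_of_dvd (by norm_num) h5
    have := hp.1
    omega

/-- **The enlargement is a polygon.** -/
theorem isPolygon_qN (hn : 0 < n) (hp : IsPolygon p) (t : ℕ) : IsPolygon (qN p n t) := by
  have hl := hp.1
  have : NeZero l := ⟨by omega⟩
  have hln : NeZero (l * n) := ⟨by positivity⟩
  refine ⟨lt_of_lt_of_le hl (Nat.le_mul_of_pos_right l hn), ?_, ?_⟩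
  · intro k k' h
    have h1 := PN_inj hn hp h
    push_cast at h1
    rw [ZMod.natCast_zmod_val, ZMod.natCast_zmod_val] at h1
    exact add_right_cancel h1
  · intro k
    refine ⟨pdir p ((k.val + t) / n), ?_⟩
    rw [qN_eq hn (k := k + 1) (m := k.val + t + 1)
      (by push_cast; rw [ZMod.natCast_zmod_val]; ring), PN_succ hn hp]
    rfl

theorem mem_enl_div {S₀ : Finset (ℤ × ℤ)} (hn : 0 < n) {w : ℤ × ℤ} :
    w ∈ enl S₀ n ↔ (w.1 / n, w.2 / n) ∈ S₀ := by
  have hn' : (0 : ℤ) < n := by exact_mod_cast hn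
  unfold enl
  simp only [mem_biUnion, mem_image, mem_product, mem_range]
  constructor
  · rintro ⟨v, hv, ⟨a, b⟩, ⟨h1, h2⟩, rfl⟩
    have e1 : ((n : ℤ) * v.1 + (a : ℤ)) / n = v.1 := by
      rw [add_comm, Int.add_mul_ediv_left _ _ hn'.ne', Int.ediv_eq_zero_of_lt (by positivity)
        (by exact_mod_cast h1), zero_add]
    have e2 : ((n : ℤ) * v.2 + (b : ℤ)) / n = v.2 := by
      rw [add_comm, Int.add_mul_ediv_left _ _ hn'.ne', Int.ediv_eq_zero_of_lt (by positivity)
        (by exact_mod_cast h2), zero_add]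
    show (((n : ℤ) * v.1 + (a : ℤ)) / n, ((n : ℤ) * v.2 + (b : ℤ)) / n) ∈ S₀
    rw [e1, e2]
    exact hv
  · intro h
    refine ⟨_, h, ((w.1 % n).toNat, (w.2 % n).toNat), ⟨?_, ?_⟩, ?_⟩
    · have := Int.emod_lt_of_pos w.1 hn'
      have := Int.emod_nonneg w.1 hn'.ne'
      omega
    · have := Int.emod_lt_of_pos w.2 hn'
      have := Int.emod_nonneg w.2 hn'.ne'
      omega
    · have h1 := Int.emod_nonneg w.1 hn'.ne'
      have h2 := Int.emod_nonneg w.2 hn'.ne'
      apply Prod.ext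
      · show (n : ℤ) * (w.1 / n) + ((w.1 % n).toNat : ℤ) = w.1
        rw [Int.toNat_of_nonneg h1]
        exact Int.mul_ediv_add_emod w.1 n
      · show (n : ℤ) * (w.2 / n) + ((w.2 % n).toNat : ℤ) = w.2
        rw [Int.toNat_of_nonneg h2]
        exact Int.mul_ediv_add_emod w.2 n

end poly

end Vale.Agent.P167.Enl
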