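import Vale.Agent.P167.XDL.Core
import Vale.Agent.P167.BR.Ind
import Vale.Agent.P167.H558.Stop

/-!
# P167, block XDL (X2): the mean value of the cut product factorises

`Xout D a` depends on the squares off `D` only; it is measurable and bounded. So
`∫ F * Xc (bS D) a = √3 ^ # * (∫ F * XD) * ∫ Xout` for every `F` which depends on the squares of
`D`.
-/

namespace Vale.Agent.P167.XDL

open Finset MeasureTheory
open Vale.Agent.P167.A (plane Grid plane_nx plane_hd)
open Vale.Agent.P167.H199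
open Vale.Agent.P167.H685 (nx_loc)
open Vale.Agent.P167.BR (eds XD VD DepF)

variable {D : Finset (ℤ × ℤ)} {a : Ed → Bool → ℝ}

/-! ### first times -/

theorem sInf_congr {A B : Set ℕ} (h : ∀ n, (∀ j < n, j ∉ A) → (n ∈ A ↔ n ∈ B)) :
    sInf A = sInf B := by
  classical
  by_cases hA : A.Nonempty
  · have h1 := Nat.sInf_mem hA
    have h2 : ∀ j < sInf A, j ∉ A := fun j hj => Nat.notMem_of_lt_sInf hj
    have h3 : sInf A ∈ B := (h _ h2).1 h1
    refine le_antisymm ?_ (Nat.sInf_le h3)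
    by_contra hlt
    push Not at hlt
    have h4 : sInf B ∈ B := Nat.sInf_mem ⟨_, h3⟩
    exact h2 _ hlt ((h _ fun j hj => h2 j (hj.trans hlt)).2 h4)
  · rw [Set.not_nonempty_iff_eq_empty] at hA
    subst hA
    have : B = ∅ := by
      ext n
      have := h n (fun j _ => Set.notMem_empty j)
      simp only [Set.mem_empty_iff_false, iff_false] at this ⊢
      simpa using this
    rw [this]

theorem ret_congr' {f f' : Ed → Ed} {S : Finset Ed} {e : Ed}
    (h : ∀ n, (∀ j, 1 ≤ j → j < n → f^[j] e ∉ S) → f^[n] e = f'^[n] e) :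
    ret f S e = ret f' S e := by
  refine sInf_congr fun n hn => ?_
  have := h n (fun j h1 h2 h3 => hn j h2 ⟨h1, h3⟩)
  simp only [Set.mem_ofPred_eq, this]

theorem strand_congr' {f f' : Ed → Ed} {S : Finset Ed} {e : Ed}
    (h : ∀ n, (∀ j, 1 ≤ j → j < n → f^[j] e ∉ S) → f^[n] e = f'^[n] e) :
    strand f S e = strand f' S e := by
  unfold strand
  rw [← ret_congr' h]
  refine image_congr fun k hk => h k fun j h1 h2 => ?_
  have hk' : k < ret f S e := by simpa using hk
  exact ret_min h1 (h2.trans hk')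

/-! ### the outer strands -/

/-- the outer strand stays off `D` -/
theorem out_iter {ω ω' : Cfg} (h : ∀ v, v ∉ D → ω v = ω' v) {e : Ed} (hd : hdv e ∉ D) (n : ℕ) (hn : ∀ j, 1 ≤ j → j ≤ n → (nx ω)^[j] e ∉ bS D) :
    (nx ω)^[n] e = (nx ω')^[n] e ∧ hdv ((nx ω)^[n] e) ∉ D := by
  induction n with
  | zero => exact ⟨rfl, hd⟩
  | succ n ih =>
    obtain ⟨h1, h2⟩ := ih fun j j1 j2 => hn j j1 (by omega)
    have h3 := hn (n + 1) (by omega) le_rfl
    constructor
    · rw [Function.iterate_succ_apply', Function.iterate_succ_apply', ← h1, nx_loc (h _ h2)]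
    · intro h4
      rw [mem_bS] at h3
      refine h3 (Or.inl ⟨h4, ?_⟩)
      rw [Function.iterate_succ_apply', tlv_nx]
      exact h2

theorem out_iter' {ω ω' : Cfg} (h : ∀ v, v ∉ D → ω v = ω' v) {e : Ed} (hd : hdv e ∉ D) (n : ℕ) (hn : ∀ j, 1 ≤ j → j < n → (nx ω)^[j] e ∉ bS D) :
    (nx ω)^[n] e = (nx ω')^[n] e := by
  cases n with
  | zero => rfl
  | succ n =>
    obtain ⟨h1, h2⟩ := out_iter h hd n fun j j1 j2 => hn j j1 (by omega)
    rw [Function.iterate_succ_apply', Function.iterate_succ_apply', ← h1, nx_loc (h _ h2)]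

theorem out_factor {ω ω' : Cfg} (h : ∀ v, v ∉ D → ω v = ω' v) {e : Ed} (hd : hdv e ∉ D) (θ : ℝ) :
    cang plane θ a ω (strand (nx ω) (bS D) e) = cang plane θ a ω' (strand (nx ω') (bS D) e) := by
  rw [← strand_congr' fun n hn => out_iter' h hd n hn]
  refine cang_congr (fun x hx => h _ ?_) θ
  obtain ⟨k, hk, rfl⟩ := mem_strand.1 hx
  exact (out_iter h hd k fun j h1 h2 => ret_min h1 (by omega)).2

/-- `Xout` depends on the squares off `D`. -/
theorem Xout_congr {ω ω' : Cfg} (h : ∀ v, v ∉ D → ω v = ω' v) : Xout D a ω = Xout D a ω' := by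
  unfold Xout
  refine prod_congr rfl fun e he => ?_
  rw [mem_filter] at he
  rw [out_factor h he.2]

theorem abs_Xout_le (ω : Cfg) : |Xout D a ω| ≤ 2 ^ ((bS D).filter fun e => hdv e ∉ D).card := by
  unfold Xout
  rw [abs_prod]
  calc _ ≤ ∏ _e ∈ (bS D).filter (fun e => hdv e ∉ D), (2 : ℝ) :=
        prod_le_prod (fun _ _ => abs_nonneg _) fun _ _ => abs_two_cos _
    _ = _ := by rw [prod_const]

/-! ### measurability -/

/-- the box around the head square -/
noncomputable def hbx (e : Ed) (N : ℕ) : Finset (ℤ × ℤ) :=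
  Finset.Icc ((hdv e).1 - N, (hdv e).2 - N) ((hdv e).1 + N, (hdv e).2 + N)

theorem mem_hbx {e : Ed} {N : ℕ} {v : ℤ × ℤ} : v ∈ hbx e N ↔
    ((hdv e).1 - N ≤ v.1 ∧ (hdv e).2 - N ≤ v.2) ∧ v.1 ≤ (hdv e).1 + N ∧ v.2 ≤ (hdv e).2 + N := by
  unfold hbx
  rw [Finset.mem_Icc, Prod.le_def, Prod.le_def]

theorem hdv_near (e : Ed) : (tlv e).1 - 1 ≤ (hdv e).1 ∧ (hdv e).1 ≤ (tlv e).1 + 1 ∧
    (tlv e).2 - 1 ≤ (hdv e).2 ∧ (hdv e).2 ≤ (tlv e).2 + 1 := by
  rcases e with v | v <;> simp only [hdv, tlv] <;> split_ifs <;> dsimp only <;> omega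

theorem it_near (ω : Cfg) (e : Ed) (n : ℕ) : hdv ((nx ω)^[n] e) ∈ hbx e n := by
  induction n with
  | zero => rw [mem_hbx]; simp
  | succ n ih =>
    have h := hdv_near ((nx ω)^[n + 1] e)
    rw [Function.iterate_succ_apply', tlv_nx] at h
    rw [mem_hbx] at ih ⊢
    rw [Function.iterate_succ_apply']
    push_cast
    omega

theorem it_dep (e : Ed) {n N : ℕ} (h : n ≤ N) : DepF (hbx e N) fun ω => (nx ω)^[n] e := by
  intro ω ω' hω
  induction n with
  | zero => rfl
  | succ n ih =>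
    have h1 := ih (by omega)
    dsimp only at h1
    show (nx ω)^[n + 1] e = (nx ω')^[n + 1] e
    rw [Function.iterate_succ_apply', Function.iterate_succ_apply', ← h1]
    refine nx_loc (hω _ ?_)
    have h2 := it_near ω e n
    rw [mem_hbx] at h2 ⊢
    have h3 : (n : ℤ) ≤ N := by exact_mod_cast (by omega : n ≤ N)
    omega

/-- the angle of the first `n` edges is a local function -/
theorem cang_dep (θ : ℝ) (e : Ed) (n : ℕ) : DepF (hbx e n) fun ω =>
    cang plane θ a ω ((range n).image fun k => (nx ω)^[k] e) := by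
  intro ω ω' hω
  have h1 : ((range n).image fun k => (nx ω)^[k] e) = (range n).image fun k => (nx ω')^[k] e := by
    refine image_congr fun k hk => ?_
    have hk' : k < n := by simpa using hk
    exact it_dep e hk'.le ω ω' hω
  show cang plane θ a ω _ = cang plane θ a ω' _
  rw [← h1]
  refine cang_congr (fun x hx => hω _ ?_) θ
  obtain ⟨k, hk, rfl⟩ := mem_image.1 hx
  have h2 := it_near ω e k
  have h3 : (k : ℤ) ≤ n := by exact_mod_cast (mem_range.1 hk).le
  rw [mem_hbx] at h2 ⊢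
  omega

theorem meas_ret (S : Finset Ed) (e : Ed) : Measurable fun ω : Cfg => ret (nx ω) S e := by
  have hA : ∀ k : ℕ, MeasurableSet {ω : Cfg | 1 ≤ k ∧ (nx ω)^[k] e ∈ S} := fun k => by
    refine DepF.measSet (K := hbx e k) (DepF.prop fun w w' hw h => ?_)
    have := it_dep e le_rfl w w' hw
    dsimp only at this
    rw [← this]
    exact h
  refine measurable_to_countable' fun n => ?_
  have e1 : (fun ω : Cfg => ret (nx ω) S e) ⁻¹' {n} =
      ({ω : Cfg | 1 ≤ n ∧ (nx ω)^[n] e ∈ S} ∩ ⋂ j ∈ Finset.range n,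
        {ω : Cfg | 1 ≤ j ∧ (nx ω)^[j] e ∈ S}ᶜ) ∪
      (if n = 0 then ⋂ j, {ω : Cfg | 1 ≤ j ∧ (nx ω)^[j] e ∈ S}ᶜ else ∅) := by
    ext ω
    simp only [Set.mem_preimage, Set.mem_singleton_iff, Set.mem_union, Set.mem_inter_iff,
      Set.mem_ofPred_eq, Set.mem_iInter, Set.mem_compl_iff, Finset.mem_range]
    constructor
    · intro h
      by_cases hR : Returns (nx ω) S e
      · have h1 := hR.spec
        rw [h] at h1
        refine Or.inl ⟨h1, fun j hj hj' => ?_⟩
        exact ret_min hj'.1 (by rw [h]; exact hj) hj'.2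
      · right
        have h0 : n = 0 := by
          rw [← h]
          have : {k | 1 ≤ k ∧ (nx ω)^[k] e ∈ S} = ∅ := by
            ext k
            simp only [Set.mem_ofPred_eq, Set.mem_empty_iff_false, iff_false]
            exact fun hk => hR ⟨k, hk⟩
          unfold ret
          rw [this, Nat.sInf_empty]
        rw [if_pos h0, Set.mem_iInter]
        intro j hj
        exact hR ⟨j, hj⟩
    · rintro (⟨h1, h2⟩ | h1)
      · refine le_antisymm (ret_le h1.1 h1.2) ?_
        by_contra hlt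
        push Not at hlt
        exact h2 _ hlt (Returns.spec ⟨n, h1⟩)
      · split_ifs at h1 with h0
        · rw [Set.mem_iInter] at h1
          have : {k | 1 ≤ k ∧ (nx ω)^[k] e ∈ S} = ∅ := by
            ext k
            simp only [Set.mem_ofPred_eq, Set.mem_empty_iff_false, iff_false]
            exact h1 k
          unfold ret
          rw [this, Nat.sInf_empty, h0]
        · exact absurd h1 (Set.notMem_empty _)
  rw [e1]
  refine ((hA n).inter (Finset.measurableSet_biInter _ fun j _ => (hA j).compl)).union ?_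
  split_ifs
  · exact MeasurableSet.iInter fun j => (hA j).compl
  · exact MeasurableSet.empty

theorem meas_diag {G : ℕ → Cfg → ℝ} (hG : ∀ n, Measurable (G n)) {T : Cfg → ℕ}
    (hT : Measurable T) : Measurable fun ω => G (T ω) ω := by
  intro s hs
  have e1 : (fun ω => G (T ω) ω) ⁻¹' s = ⋃ n, (T ⁻¹' {n} ∩ G n ⁻¹' s) := by
    ext ω
    simp only [Set.mem_preimage, Set.mem_iUnion, Set.mem_inter_iff, Set.mem_singleton_iff]
    constructor
    · intro h
      exact ⟨T ω, rfl, h⟩
    · rintro ⟨n, h1, h2⟩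
      rw [h1]; exact h2
  rw [e1]
  exact MeasurableSet.iUnion fun n => (hT (measurableSet_singleton n)).inter (hG n hs)

theorem meas_cang (θ : ℝ) (S : Finset Ed) (e : Ed) :
    Measurable fun ω : Cfg => cang plane θ a ω (strand (nx ω) S e) := by
  have h := meas_diag (G := fun n ω => cang plane θ a ω ((range n).image fun k => (nx ω)^[k] e))
    (fun n => (cang_dep θ e n).meas) (meas_ret S e)
  exact h

theorem meas_Xout : Measurable (Xout D a) := by
  have : Xout D a = fun ω => ∏ e ∈ (bS D).filter (fun e => hdv e ∉ D),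
      2 * Real.cos (cang plane (Real.pi / 3) a ω (strand (nx ω) (bS D) e)) := rfl
  rw [this]
  exact Finset.measurable_prod _ fun e _ =>
    (Real.measurable_cos.comp (meas_cang _ _ e)).const_mul 2

theorem int_Xout : Integrable (Xout D a) μ :=
  Integrable.of_bound meas_Xout.aestronglyMeasurable (2 ^ ((bS D).filter fun e => hdv e ∉ D).card)
    (Filter.Eventually.of_forall fun ω => by rw [Real.norm_eq_abs]; exact abs_Xout_le ω)

/-! ### independence -/

/-- a function of the squares of `K` and a function of the other squares -/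
theorem int_mul_off {K : Finset (ℤ × ℤ)} {F G : Cfg → ℝ} (hF : DepF K F) (hGm : Measurable G)
    (hG : ∀ ω ω' : Cfg, (∀ v, v ∉ K → ω v = ω' v) → G ω = G ω') :
    ∫ ω, F ω * G ω ∂μ = (∫ ω, F ω ∂μ) * ∫ ω, G ω ∂μ := by
  have h := H558.map_glue fair (↑K : Set (ℤ × ℤ))
  have hμ : H558.Pm fair (ℤ × ℤ) = μ := rfl
  rw [hμ] at h
  have hm : Measurable fun ω => F ω * G ω := hF.meas.mul hGm
  calc ∫ ω, F ω * G ω ∂μ
      = ∫ p : Cfg × Cfg, F (H558.glue (↑K) p.1 p.2) * G (H558.glue (↑K) p.1 p.2) ∂(μ.prod μ) := by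
        conv_lhs => rw [← h]
        exact integral_map (H558.measurable_glue _).aemeasurable hm.aestronglyMeasurable
    _ = ∫ p : Cfg × Cfg, F p.1 * G p.2 ∂(μ.prod μ) := by
        congr 1
        funext p
        rw [hF (H558.glue (↑K) p.1 p.2) p.1 fun v hv => H558.glue_mem (Finset.mem_coe.2 hv),
          hG (H558.glue (↑K) p.1 p.2) p.2 fun v hv => H558.glue_not_mem fun h' =>
            hv (Finset.mem_coe.1 h')]
    _ = _ := integral_prod_mul _ _

/-- **(X2)** -/
theorem int_XD_Xout (p : ℤ × ℤ) (f : ℤ × ℤ → ℝ) :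
    ∫ ω, XD D p f ω * Xout D a ω ∂μ = VD D p f * ∫ ω, Xout D a ω ∂μ :=
  int_mul_off BR.dep_XD meas_Xout fun _ _ h => Xout_congr h

/-- **(X2)** with a function of the squares of `D` -/
theorem int_mul_XD_Xout {F : Cfg → ℝ} (hF : DepF D F) (p : ℤ × ℤ) (f : ℤ × ℤ → ℝ) :
    ∫ ω, F ω * (XD D p f ω * Xout D a ω) ∂μ =
      (∫ ω, F ω * XD D p f ω ∂μ) * ∫ ω, Xout D a ω ∂μ := by
  rw [← int_mul_off (hF.mul BR.dep_XD) meas_Xout fun _ _ h => Xout_congr h]
  refine integral_congr_ae (Filter.Eventually.of_forall fun ω => ?_)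
  simp only [mul_assoc]

open Vale.Agent.P167.E6 (IsPolygon Encloses) in
open Vale.Agent.P167.H871 (Bd) in
open Vale.Agent.P167.H825 (dv) in
/-- **(X2)** for the cut product -/
theorem int_Xc {n : ℕ} [NeZero n] {q : ZMod n → ℤ × ℤ} {u : ℕ → ℤ} {c : Ed → ℝ} {K : ℝ}
    (hq : IsPolygon q) (hD : Encloses q D)
    (hu : Bd (D : Set (ℤ × ℤ)) n (fun k => q (k : ZMod n)) u 1) (hg : Gau q D u a c K)
    {F : Cfg → ℝ} (hF : DepF D F) :
    ∫ ω, F ω * Xc (bS D) a ω ∂μ = √3 ^ ((bS D).filter fun e => hdv e ∈ D).card *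
      (∫ ω, F ω * XD D (q 0) (dv c) ω ∂μ) * ∫ ω, Xout D a ω ∂μ := by
  rw [mul_assoc, ← int_mul_XD_Xout hF, ← integral_const_mul]
  refine integral_congr_ae (Filter.Eventually.of_forall fun ω => ?_)
  simp only
  rw [xdl hq hD hu hg ω]
  ring

end Vale.Agent.P167.XDL
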