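import Vale.Agent.P167.XDL.Enl

/-!
# P167, block XDL: the enlarged polygon encloses the enlarged domain; its lifted directions
-/

namespace Vale.Agent.P167.Enl

open Finset
open Vale.Agent.P167.E6 (IsPolygon Encloses dir face)
open Vale.Agent.P167.H825 (dirOf tn enl pdir ptau)
open Vale.Agent.P167.Top (vec dx dy dx_congr dy_congr)
open Vale.Agent.P167.H871 (Bd sqL sqL_congr exists_bd vec_fin)

theorem face0 (v : ℤ × ℤ) : face v 0 = v := by simp [face]
theorem face1 (v : ℤ × ℤ) : face v 1 = (v.1 - 1, v.2) := by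
  simp [face, sub_eq_add_neg]; ext <;> simp
theorem face2 (v : ℤ × ℤ) : face v 2 = (v.1 - 1, v.2 - 1) := by
  simp [face, sub_eq_add_neg]; ext <;> simp
theorem face3 (v : ℤ × ℤ) : face v 3 = (v.1, v.2 - 1) := by
  simp [face, sub_eq_add_neg]; ext <;> simp

theorem div_eq {n : ℕ} (hn : 0 < n) {X s : ℤ} (h0 : 0 ≤ s) (h1 : s < n) :
    ((n : ℤ) * X + s) / n = X := by
  have hn' : (0 : ℤ) < n := by exact_mod_cast hn
  rw [add_comm, Int.add_mul_ediv_left _ _ hn'.ne', Int.ediv_eq_zero_of_lt h0 h1, zero_add]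

/-- The squares next to a side of the enlargement. -/
theorem face_div {n : ℕ} (hn : 0 < n) (a : ℤ × ℤ) {j : ℕ} (hj : j < n) (d : Fin 4) :
    ((face ((n : ℤ) • a + (j : ℤ) • dir d) d).1 / n,
      (face ((n : ℤ) • a + (j : ℤ) • dir d) d).2 / n) = face a d ∧
    ((face ((n : ℤ) • a + (j : ℤ) • dir d) (d - 1)).1 / n,
      (face ((n : ℤ) • a + (j : ℤ) • dir d) (d - 1)).2 / n) = face a (d - 1) := by
  obtain ⟨X, Y⟩ := a
  have hn' : (1 : ℤ) ≤ n := by exact_mod_cast hn
  have e0 : ∀ X : ℤ, ((n : ℤ) * X) / n = X := fun X => by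
    have := div_eq hn (X := X) (s := 0) le_rfl (by omega)
    rwa [add_zero] at this
  have em : ∀ X : ℤ, ((n : ℤ) * X - 1) / n = X - 1 := fun X => by
    have := div_eq hn (X := X - 1) (s := n - 1) (by omega) (by omega)
    rw [← this]
    congr 1
    ring
  have ej : ∀ X : ℤ, ((n : ℤ) * X + j) / n = X := fun X => div_eq hn (by positivity)
    (by exact_mod_cast hj)
  have ek : ∀ X : ℤ, ((n : ℤ) * X - j - 1) / n = X - 1 := fun X => by
    have := div_eq hn (X := X - 1) (s := n - 1 - j) (by omega) (by omega)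
    rw [← this]
    congr 1
    ring
  fin_cases d
  · show ((face ((n : ℤ) • (X, Y) + (j : ℤ) • dir 0) 0).1 / (n : ℤ),
      (face ((n : ℤ) • (X, Y) + (j : ℤ) • dir 0) 0).2 / (n : ℤ)) = face (X, Y) 0 ∧
      ((face ((n : ℤ) • (X, Y) + (j : ℤ) • dir 0) 3).1 / (n : ℤ),
      (face ((n : ℤ) • (X, Y) + (j : ℤ) • dir 0) 3).2 / (n : ℤ)) = face (X, Y) 3
    simp only [face0, face3, dir0, Prod.smul_mk, smul_eq_mul, Prod.mk_add_mk, mul_one, mul_zero,
      add_zero, ej, e0, em, and_self]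
  · show ((face ((n : ℤ) • (X, Y) + (j : ℤ) • dir 1) 1).1 / (n : ℤ),
      (face ((n : ℤ) • (X, Y) + (j : ℤ) • dir 1) 1).2 / (n : ℤ)) = face (X, Y) 1 ∧
      ((face ((n : ℤ) • (X, Y) + (j : ℤ) • dir 1) 0).1 / (n : ℤ),
      (face ((n : ℤ) • (X, Y) + (j : ℤ) • dir 1) 0).2 / (n : ℤ)) = face (X, Y) 0
    simp only [face0, face1, dir1, Prod.smul_mk, smul_eq_mul, Prod.mk_add_mk, mul_one, mul_zero,
      add_zero, ej, e0, em, and_self]
  · show ((face ((n : ℤ) • (X, Y) + (j : ℤ) • dir 2) 2).1 / (n : ℤ),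
      (face ((n : ℤ) • (X, Y) + (j : ℤ) • dir 2) 2).2 / (n : ℤ)) = face (X, Y) 2 ∧
      ((face ((n : ℤ) • (X, Y) + (j : ℤ) • dir 2) 1).1 / (n : ℤ),
      (face ((n : ℤ) • (X, Y) + (j : ℤ) • dir 2) 1).2 / (n : ℤ)) = face (X, Y) 1
    simp only [face2, face1, dir2, Prod.smul_mk, smul_eq_mul, Prod.mk_add_mk, mul_neg, mul_one,
      mul_zero, add_zero, ← sub_eq_add_neg, ek, e0, em, and_self]
  · show ((face ((n : ℤ) • (X, Y) + (j : ℤ) • dir 3) 3).1 / (n : ℤ),
      (face ((n : ℤ) • (X, Y) + (j : ℤ) • dir 3) 3).2 / (n : ℤ)) = face (X, Y) 3 ∧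
      ((face ((n : ℤ) • (X, Y) + (j : ℤ) • dir 3) 2).1 / (n : ℤ),
      (face ((n : ℤ) • (X, Y) + (j : ℤ) • dir 3) 2).2 / (n : ℤ)) = face (X, Y) 2
    simp only [face3, face2, dir3, Prod.smul_mk, smul_eq_mul, Prod.mk_add_mk, mul_neg, mul_one,
      mul_zero, add_zero, ← sub_eq_add_neg, ek, e0, em, and_self]

/-- A step of the lattice between two different cells is on the side of a cell. -/
theorem exists_side {n : ℕ} (hn : 0 < n) (v : ℤ × ℤ) (r : Fin 4)
    (h : ((face v r).1 / (n : ℤ), (face v r).2 / (n : ℤ)) ≠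
      ((face v (r - 1)).1 / (n : ℤ), (face v (r - 1)).2 / (n : ℤ))) :
    ∃ (a : ℤ × ℤ) (j : ℕ), j < n ∧ v = (n : ℤ) • a + (j : ℤ) • dir r := by
  obtain ⟨x, y⟩ := v
  have hn' : (1 : ℤ) ≤ n := by exact_mod_cast hn
  have hd : ∀ z : ℤ, z / (n : ℤ) ≠ (z - 1) / (n : ℤ) → z = n * (z / n) := by
    intro z hz
    by_contra hc
    apply hz
    have h1 := Int.mul_ediv_add_emod z n
    have h2 := Int.emod_nonneg z (show (n : ℤ) ≠ 0 by omega)
    have h3 := Int.emod_lt_of_pos z (show (0 : ℤ) < n by omega)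
    have h4 : z - 1 = (n : ℤ) * (z / n) + (z % n - 1) := by omega
    conv_rhs => rw [h4]
    rw [div_eq hn (by omega) (by omega)]
  have hr : ∀ z : ℤ, ∃ j : ℕ, j < n ∧ z = n * (z / n) + j := by
    intro z
    have h1 := Int.mul_ediv_add_emod z n
    have h2 := Int.emod_nonneg z (show (n : ℤ) ≠ 0 by omega)
    have h3 := Int.emod_lt_of_pos z (show (0 : ℤ) < n by omega)
    exact ⟨(z % n).toNat, by omega, by omega⟩
  have hl : ∀ z : ℤ, ∃ j : ℕ, j < n ∧ z = n * ((z - 1) / n + 1) - j := by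
    intro z
    have h1 := Int.mul_ediv_add_emod (z - 1) n
    have h2 := Int.emod_nonneg (z - 1) (show (n : ℤ) ≠ 0 by omega)
    have h3 := Int.emod_lt_of_pos (z - 1) (show (0 : ℤ) < n by omega)
    refine ⟨(n - 1 - (z - 1) % n).toNat, by omega, ?_⟩
    rw [mul_add]
    omega
  fin_cases r
  · change ((face (x, y) 0).1 / (n : ℤ), (face (x, y) 0).2 / (n : ℤ)) ≠
      ((face (x, y) 3).1 / (n : ℤ), (face (x, y) 3).2 / (n : ℤ)) at h
    rw [face0, face3] at h
    have h1 := hd y fun h' => h (Prod.ext rfl h')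
    obtain ⟨j, hj, h2⟩ := hr x
    refine ⟨(x / n, y / n), j, hj, ?_⟩
    show (x, y) = (n : ℤ) • (x / (n : ℤ), y / (n : ℤ)) + (j : ℤ) • dir 0
    simp only [dir0, Prod.smul_mk, smul_eq_mul, Prod.mk_add_mk, mul_one, mul_zero, add_zero]
    exact Prod.ext h2 h1
  · change ((face (x, y) 1).1 / (n : ℤ), (face (x, y) 1).2 / (n : ℤ)) ≠
      ((face (x, y) 0).1 / (n : ℤ), (face (x, y) 0).2 / (n : ℤ)) at h
    rw [face0, face1] at h
    have h1 := hd x fun h' => h (Prod.ext h'.symm rfl)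
    obtain ⟨j, hj, h2⟩ := hr y
    refine ⟨(x / n, y / n), j, hj, ?_⟩
    show (x, y) = (n : ℤ) • (x / (n : ℤ), y / (n : ℤ)) + (j : ℤ) • dir 1
    simp only [dir1, Prod.smul_mk, smul_eq_mul, Prod.mk_add_mk, mul_one, mul_zero, add_zero]
    exact Prod.ext h1 h2
  · change ((face (x, y) 2).1 / (n : ℤ), (face (x, y) 2).2 / (n : ℤ)) ≠
      ((face (x, y) 1).1 / (n : ℤ), (face (x, y) 1).2 / (n : ℤ)) at h
    rw [face2, face1] at h
    have h1 := hd y fun h' => h (Prod.ext rfl h'.symm)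
    obtain ⟨j, hj, h2⟩ := hl x
    refine ⟨((x - 1) / n + 1, y / n), j, hj, ?_⟩
    show (x, y) = (n : ℤ) • ((x - 1) / (n : ℤ) + 1, y / (n : ℤ)) + (j : ℤ) • dir 2
    simp only [dir2, Prod.smul_mk, smul_eq_mul, Prod.mk_add_mk, mul_neg, mul_one, mul_zero,
      add_zero, ← sub_eq_add_neg]
    exact Prod.ext h2 h1
  · change ((face (x, y) 3).1 / (n : ℤ), (face (x, y) 3).2 / (n : ℤ)) ≠
      ((face (x, y) 2).1 / (n : ℤ), (face (x, y) 2).2 / (n : ℤ)) at h
    rw [face3, face2] at h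
    have h1 := hd x fun h' => h (Prod.ext h' rfl)
    obtain ⟨j, hj, h2⟩ := hl y
    refine ⟨(x / n, (y - 1) / n + 1), j, hj, ?_⟩
    show (x, y) = (n : ℤ) • (x / (n : ℤ), (y - 1) / (n : ℤ) + 1) + (j : ℤ) • dir 3
    simp only [dir3, Prod.smul_mk, smul_eq_mul, Prod.mk_add_mk, mul_neg, mul_one, mul_zero,
      add_zero, ← sub_eq_add_neg]
    exact Prod.ext h1 h2

variable {l : ℕ} {p : ZMod l → ℤ × ℤ} {n : ℕ} {S₀ : Finset (ℤ × ℤ)}

theorem qN_succ (hn : 0 < n) (hp : IsPolygon p) {t m : ℕ} {k : ZMod (l * n)}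
    (h : (m : ZMod (l * n)) = k + (t : ZMod (l * n))) :
    qN p n t (k + 1) = qN p n t k + dir (pdir p (m / n)) := by
  have : NeZero l := ⟨by have := hp.1; omega⟩
  rw [qN_eq hn h, qN_eq hn (m := m + 1) (k := k + 1) (by push_cast; rw [h]; ring), PN_succ hn hp]

theorem dir_inj {r r' : Fin 4} (h : dir r = dir r') : r = r' := by
  rw [← dirOf_dir r, h, dirOf_dir]

/-- **The enlarged polygon encloses the enlarged domain.** -/
theorem encloses_qN (hn : 0 < n) (hp : IsPolygon p) (hD : Encloses p S₀) (t : ℕ) :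
    Encloses (qN p n t) (enl S₀ n) := by
  have hl := hp.1
  have : NeZero l := ⟨by omega⟩
  have hln : NeZero (l * n) := ⟨by positivity⟩
  intro v r
  rw [mem_enl_div hn, mem_enl_div hn]
  constructor
  · rintro ⟨k, hk, hk'⟩
    have hm : ((k.val + t : ℕ) : ZMod (l * n)) = k + (t : ZMod (l * n)) := by
      push_cast
      rw [ZMod.natCast_zmod_val]
    rw [qN_succ hn hp hm, hk] at hk'
    have hr := dir_inj (add_left_cancel hk')
    rw [qN_eq hn hm] at hk
    set m := k.val + t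
    have hm' := Nat.div_add_mod' m n
    have hj := Nat.mod_lt m hn
    rw [← hm', PN_lin hn hj, hr] at hk
    have h1 := (hD (p ((m / n : ℕ) : ZMod l)) r).1 ⟨_, rfl, by rw [pdir_step hp, hr]⟩
    obtain ⟨h2, h3⟩ := face_div hn (p ((m / n : ℕ) : ZMod l)) hj r
    rw [← hk, h2, h3]
    exact h1
  · rintro ⟨h1, h2⟩
    obtain ⟨a, j, hj, rfl⟩ := exists_side hn v r fun h => h2 (h ▸ h1)
    obtain ⟨h3, h4⟩ := face_div hn a hj r
    rw [h3] at h1
    rw [h4] at h2
    obtain ⟨i, hi, hi'⟩ := (hD a r).2 ⟨h1, h2⟩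
    have hi0 : ((i.val : ℕ) : ZMod l) = i := ZMod.natCast_zmod_val i
    have hpd : pdir p i.val = r := by
      unfold pdir
      rw [hi0, hi', hi, add_sub_cancel_left, dirOf_dir]
    set m := i.val * n + j with hmdef
    have hm : (m : ZMod (l * n)) = ((m : ZMod (l * n)) - t) + (t : ZMod (l * n)) := by ring
    refine ⟨(m : ZMod (l * n)) - t, ?_, ?_⟩
    · rw [qN_eq hn hm, hmdef, PN_lin hn hj, hi0, hi, hpd]
    · rw [qN_succ hn hp hm, qN_eq hn hm]
      have hdiv : m / n = i.val := by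
        rw [hmdef, add_comm, Nat.add_mul_div_right _ _ hn, Nat.div_eq_of_lt hj, zero_add]
      rw [hdiv, hpd, hmdef, PN_lin hn hj, hi0, hi, hpd]

/-- The lifted directions of the enlarged polygon. -/
def uN (p : ZMod l → ℤ × ℤ) (n t : ℕ) (k : ℕ) : ℤ :=
  (((pdir p 0).val : ℕ) : ℤ) + ptau p ((k + t) / n)

theorem vec_eq_mod {d d' : ℤ} (h : vec d = vec d') : d % 4 = d' % 4 := by
  unfold vec dx dy at h
  have h1 := congrArg Prod.fst h
  have h2 := congrArg Prod.snd h
  simp only at h1 h2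
  split_ifs at h1 h2 <;> omega

theorem bd_shift {D : Set (ℤ × ℤ)} {N : ℕ} {P : ℕ → ℤ × ℤ} {u : ℕ → ℤ} {σ s : ℤ}
    (h : Bd D N P u σ) (hs : s % 4 = 0) : Bd D N P (fun k => u k + s) σ where
  step k := by
    rw [h.step k]
    congr 1
    unfold vec
    rw [dx_congr (show (u k + s) % 4 = u k % 4 by omega),
      dy_congr (show (u k + s) % 4 = u k % 4 by omega)]
  turn k := by
    have := h.turn k
    rwa [show u (k + 1) + s - (u k + s) = u (k + 1) - u k by ring]
  per k := by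
    have := h.per k
    rw [this]; ring
  perP := h.perP
  inj := h.inj
  left k := by
    rw [sqL_congr (show (u k + s) % 4 = u k % 4 by omega)]
    exact h.left k
  right k := by
    rw [sqL_congr (show (u k + s - 1) % 4 = (u k - 1) % 4 by omega)]
    exact h.right k

/-- **Lifted directions of the enlargement.** -/
theorem bd_qN (hn : 0 < n) (hp : IsPolygon p) (hD : Encloses p S₀) {t : ℕ} (ht : t < n) :
    Bd (enl S₀ n : Set (ℤ × ℤ)) (l * n) (fun k => qN p n t (k : ZMod (l * n))) (uN p n t) 1 := by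
  have hl := hp.1
  have : NeZero l := ⟨by omega⟩
  obtain ⟨u, hu⟩ := exists_bd (isPolygon_qN hn hp t) (encloses_qN hn hp hD t)
  have hmod : ∀ k, u k % 4 = (((pdir p ((k + t) / n)).val : ℕ) : ℤ) := by
    intro k
    have h1 := hu.step k
    have h2 := qN_succ hn hp (t := t) (m := k + t) (k := (k : ZMod (l * n))) (by push_cast; rfl)
    push_cast at h1
    rw [h2] at h1
    have h3 := add_left_cancel h1
    rw [← vec_fin] at h3
    have h4 := vec_eq_mod h3
    have h5 := (pdir p ((k + t) / n)).isLt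
    omega
  have hstep : ∀ k, u k = u 0 + ptau p ((k + t) / n) := by
    intro k
    induction k with
    | zero =>
      rw [zero_add, Nat.div_eq_of_lt ht]
      show u 0 = u 0 + 0
      ring
    | succ k ih =>
      have h1 := hu.turn k
      have h2 := hmod k
      have h3 := hmod (k + 1)
      rw [abs_le] at h1
      by_cases hc : (k + 1 + t) / n = (k + t) / n
      · rw [hc] at h3 ⊢
        omega
      · have hc' : (k + 1 + t) / n = (k + t) / n + 1 := by
          have h4 : (k + t) / n ≤ (k + 1 + t) / n := Nat.div_le_div_right (by omega)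
          have h5 : (k + 1 + t) / n ≤ (k + t) / n + 1 := by
            rw [Nat.div_le_iff_le_mul_add_pred hn]
            have := Nat.div_add_mod (k + t) n
            have := Nat.mod_lt (k + t) hn
            rw [Nat.mul_add]
            omega
          omega
        rw [hc'] at h3 ⊢
        show u (k + 1) = u 0 + (ptau p ((k + t) / n) + tn (pdir p ((k + t) / n))
          (pdir p ((k + t) / n + 1)))
        have h6 : tn (pdir p ((k + t) / n)) (pdir p ((k + t) / n + 1)) = u (k + 1) - u k := by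
          generalize pdir p ((k + t) / n) = a at h2
          generalize pdir p ((k + t) / n + 1) = b at h3
          unfold tn
          fin_cases a <;> fin_cases b <;> simp at h2 h3 ⊢ <;> omega
        omega
  have h0 : (((pdir p 0).val : ℕ) : ℤ) - u 0 = (((pdir p 0).val : ℕ) : ℤ) - u 0 := rfl
  have h1 : ((((pdir p 0).val : ℕ) : ℤ) - u 0) % 4 = 0 := by
    have := hmod 0
    rw [zero_add, Nat.div_eq_of_lt ht] at this
    omega
  have h2 := bd_shift hu h1
  have h3 : (fun k => u k + ((((pdir p 0).val : ℕ) : ℤ) - u 0)) = uN p n t := by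
    funext k
    rw [hstep k]
    unfold uN
    ring
  rwa [h3] at h2

end Vale.Agent.P167.Enl
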