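import Vale.Agent.P167.XDL.EnlS

/-!
# P167, block XDL: geometry of the polygon with holes
-/

namespace Vale.Agent.P167.Enl

open Finset
open Vale.Agent.P167.E6 (IsPolygon Encloses dir face)
open Vale.Agent.P167.H825 (dirOf tn enl pdir ptau Wall WC Marks rnd bsite sideWall pwall PW dv epos
  FlowIn)
open Vale.Agent.P167.BR (ce be ce0 ce1 ce2 ce3 be_injective ce_even ce_odd be_bd be_even be_odd eds
  mem_eds exists_be)
open Vale.Agent.P167.H199 (hb ah at')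
open Vale.Agent.P167.A (plane plane_sg)
open Vale.Agent.P167.XDL (bS mem_bS Gau)
open Vale.Agent.P167.H662 (PF fwall hsite tsite Bdy Ray os GeoAt GEO col)

variable {l : ℕ} {p : ZMod l → ℤ × ℤ} {n : ℕ} {S₀ : Finset (ℤ × ℤ)} {Q : Marks} {d : ℕ}

theorem mul_tri (n : ℕ) (X X' : ℤ) : X = X' ∨ (X < X' ∧ (n : ℤ) * X + n ≤ n * X') ∨
    (X' < X ∧ (n : ℤ) * X' + n ≤ n * X) := by
  have h0 : (0 : ℤ) ≤ n := by positivity
  rcases lt_trichotomy X X' with h | h | h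
  · exact Or.inr (Or.inl ⟨h, by nlinarith⟩)
  · exact Or.inl h
  · exact Or.inr (Or.inr ⟨h, by nlinarith⟩)

theorem le_nm {κ : ℤ} {v : ℤ × ℤ} (h : κ ≤ v.1 ∨ κ ≤ -v.1 ∨ κ ≤ v.2 ∨ κ ≤ -v.2) : κ ≤ nm v := by
  unfold nm
  rw [le_max_iff, le_abs, le_abs]
  tauto

/-- A moving and a fixed coordinate. -/
theorem axA (n : ℕ) (X X' : ℤ) {j κ : ℤ} (k1 : κ ≤ j) (k2 : κ ≤ n - j) :
    (κ ≤ (n : ℤ) * X + j - n * X' ∨ κ ≤ -((n : ℤ) * X + j - n * X')) ∧
    (κ ≤ (n : ℤ) * X - j - n * X' ∨ κ ≤ -((n : ℤ) * X - j - n * X')) := by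
  have h0 : (0 : ℤ) ≤ n := by positivity
  rcases mul_tri n X X' with h | ⟨-, h⟩ | ⟨-, h⟩
  · rw [h]; omega
  · omega
  · omega

/-- Two coordinates moving in the same direction. -/
theorem axS (n : ℕ) {X X' : ℤ} {j j' κ : ℤ} (hj' : 0 ≤ j') (hj1' : j' ≤ n) (k1 : κ ≤ j)
    (k2 : κ ≤ n - j) (h : X ≠ X') :
    (κ ≤ (n : ℤ) * X + j - (n * X' + j') ∨ κ ≤ -((n : ℤ) * X + j - (n * X' + j'))) ∧
    (κ ≤ (n : ℤ) * X - j - (n * X' - j') ∨ κ ≤ -((n : ℤ) * X - j - (n * X' - j'))) := by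
  rcases mul_tri n X X' with h' | ⟨-, h'⟩ | ⟨-, h'⟩
  · exact absurd h' h
  · omega
  · omega

/-- Two coordinates moving in opposite directions. -/
theorem axO (n : ℕ) {X X' : ℤ} {j j' κ : ℤ} (hj' : 0 ≤ j') (hj1' : j' ≤ n) (k1 : κ ≤ j)
    (k2 : κ ≤ n - j) :
    (X' ≠ X + 1 → (κ ≤ (n : ℤ) * X + j - (n * X' - j') ∨
      κ ≤ -((n : ℤ) * X + j - (n * X' - j')))) ∧
    (X' ≠ X - 1 → (κ ≤ (n : ℤ) * X - j - (n * X' + j') ∨
      κ ≤ -((n : ℤ) * X - j - (n * X' + j')))) := by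
  constructor
  · intro h
    rcases mul_tri n (X + 1) X' with h' | ⟨-, h'⟩ | ⟨-, h'⟩
    · exact absurd h'.symm h
    · rw [mul_add, mul_one] at h'; omega
    · rw [mul_add, mul_one] at h'; omega
  · intro h
    rcases mul_tri n (X - 1) X' with h' | ⟨-, h'⟩ | ⟨-, h'⟩
    · exact absurd h'.symm h
    · rw [mul_sub, mul_one] at h'; omega
    · rw [mul_sub, mul_one] at h'; omega

/-- Two different fixed coordinates. -/
theorem axF (n : ℕ) {X X' : ℤ} {κ : ℤ} (hn : κ ≤ n) (h : X ≠ X') :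
    κ ≤ (n : ℤ) * X - n * X' ∨ κ ≤ -((n : ℤ) * X - n * X') := by
  rcases mul_tri n X X' with h' | ⟨-, h'⟩ | ⟨-, h'⟩
  · exact absurd h' h
  · omega
  · omega

theorem orX {a b c d : Prop} (h : a ∨ b) : a ∨ b ∨ c ∨ d := h.imp_right Or.inl
theorem orY {a b c d : Prop} (h : c ∨ d) : a ∨ b ∨ c ∨ d := Or.inr (Or.inr h)

/-- Points of two different sides of the enlargement are at least as far from each other as one of
them from the vertices. -/
theorem side_dist {n : ℕ} {a a' : ℤ × ℤ} {j j' : ℤ} {r r' : Fin 4} (hj' : 0 ≤ j') (hj1' : j' ≤ n)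
    (h1 : ¬ (a = a' ∧ r = r')) (h2 : ¬ (a' = a + dir r ∧ a = a' + dir r')) {κ : ℤ}
    (k1 : κ ≤ j) (k2 : κ ≤ n - j) (hn : κ ≤ n) :
    κ ≤ nm ((n : ℤ) • a + j • dir r - ((n : ℤ) • a' + j' • dir r')) := by
  obtain ⟨X, Y⟩ := a
  obtain ⟨X', Y'⟩ := a'
  apply le_nm
  simp only [Prod.fst_add, Prod.snd_add, Prod.smul_mk, smul_eq_mul, Prod.smul_fst,
    Prod.smul_snd, Prod.fst_sub, Prod.snd_sub]
  fin_cases r <;> fin_cases r' <;>
    simp only [Fin.zero_eta, Fin.mk_one, Fin.reduceFinMk, dir0, dir1, dir2, dir3, mul_one, mul_zero,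
      add_zero, mul_neg, Prod.mk.injEq, Prod.mk_add_mk, and_true, Fin.isValue, one_ne_zero,
      zero_ne_one, and_false, not_false_eq_true, Fin.reduceEq, ← sub_eq_add_neg] at h1 h2 ⊢
  · by_cases hY : Y = Y'
    · exact orX (axS n hj' hj1' k1 k2 (X := X) (X' := X') fun h => h1 ⟨h, hY⟩).1
    · exact orY (axF n hn hY)
  · exact orX (axA n X X' k1 k2).1
  · by_cases hY : Y = Y'
    · exact orX ((axO n hj' hj1' k1 k2 (X := X) (X' := X')).1 fun h => h2 ⟨⟨h, hY.symm⟩, by omega, hY⟩)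
    · exact orY (axF n hn hY)
  · exact orX (axA n X X' k1 k2).1
  · exact orY (axA n Y Y' k1 k2).1
  · by_cases hX : X = X'
    · exact orY (axS n hj' hj1' k1 k2 (X := Y) (X' := Y') fun h => h1 ⟨hX, h⟩).1
    · exact orX (axF n hn hX)
  · exact orY (axA n Y Y' k1 k2).1
  · by_cases hX : X = X'
    · exact orY ((axO n hj' hj1' k1 k2 (X := Y) (X' := Y')).1 fun h => h2 ⟨⟨hX.symm, h⟩, hX, by omega⟩)
    · exact orX (axF n hn hX)
  · by_cases hY : Y = Y'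
    · exact orX ((axO n hj' hj1' k1 k2 (X := X) (X' := X')).2 fun h => h2 ⟨⟨h, hY.symm⟩, by omega, hY⟩)
    · exact orY (axF n hn hY)
  · exact orX (axA n X X' k1 k2).2
  · by_cases hY : Y = Y'
    · exact orX (axS n hj' hj1' k1 k2 (X := X) (X' := X') fun h => h1 ⟨h, hY⟩).2
    · exact orY (axF n hn hY)
  · exact orX (axA n X X' k1 k2).2
  · exact orY (axA n Y Y' k1 k2).2
  · by_cases hX : X = X'
    · exact orY ((axO n hj' hj1' k1 k2 (X := Y) (X' := Y')).2 fun h => h2 ⟨⟨hX.symm, h⟩, hX, by omega⟩)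
    · exact orX (axF n hn hX)
  · exact orY (axA n Y Y' k1 k2).2
  · by_cases hX : X = X'
    · exact orY (axS n hj' hj1' k1 k2 (X := Y) (X' := Y') fun h => h1 ⟨hX, h⟩).2
    · exact orX (axF n hn hX)

/-! ### norms -/

theorem nm_add (v w : ℤ × ℤ) : nm (v + w) ≤ nm v + nm w := by
  unfold nm
  refine max_le ?_ ?_
  · exact (abs_add_le _ _).trans (add_le_add (le_max_left _ _) (le_max_left _ _))
  · exact (abs_add_le _ _).trans (add_le_add (le_max_right _ _) (le_max_right _ _))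

theorem nm_neg (v : ℤ × ℤ) : nm (-v) = nm v := by
  simp [nm]

theorem nm_sub_comm (v w : ℤ × ℤ) : nm (v - w) = nm (w - v) := by
  rw [← nm_neg, neg_sub]

theorem nm_tri (u v w : ℤ × ℤ) : nm (u - w) ≤ nm (u - v) + nm (v - w) := by
  have := nm_add (u - v) (v - w)
  rwa [sub_add_sub_cancel] at this

theorem nm_dir (k : ℤ) (r : Fin 4) : nm (k • dir r) = |k| := by
  fin_cases r
  · show nm (k • dir 0) = |k|
    rw [dir0]; simp [nm]
  · show nm (k • dir 1) = |k|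
    rw [dir1]; simp [nm]
  · show nm (k • dir 2) = |k|
    rw [dir2]; simp [nm]
  · show nm (k • dir 3) = |k|
    rw [dir3]; simp [nm]

theorem face_near (v : ℤ × ℤ) (r : Fin 4) : nm (face v r - v) ≤ 1 := by
  fin_cases r
  · show nm (face v 0 - v) ≤ 1
    rw [face0]; simp [nm]
  · show nm (face v 1 - v) ≤ 1
    rw [face1]; simp [nm]
  · show nm (face v 2 - v) ≤ 1
    rw [face2]; simp [nm]
  · show nm (face v 3 - v) ≤ 1
    rw [face3]; simp [nm]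

theorem ce_near (v : ℤ × ℤ) (r : Fin 4) : nm (hdv (ce v r) - v) ≤ 1 ∧ nm (tlv (ce v r) - v) ≤ 1 := by
  by_cases h : Even (v.1 + v.2)
  · obtain ⟨-, -, h1, h2⟩ := ce_even h r
    rw [h1, h2]
    exact ⟨face_near v r, face_near v _⟩
  · obtain ⟨-, -, h1, h2⟩ := ce_odd h r
    rw [h1, h2]
    exact ⟨face_near v _, face_near v r⟩

/-! ### rays -/

theorem ce_mem_ray (z : ℤ × ℤ) (r : Fin 4) (k : ℕ) : ce (z + (k : ℤ) • dir r) r ∈ Ray r z := by
  fin_cases r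
  · exact ⟨z.1 + k, by omega, by
      show ce (z + (k : ℤ) • dir 0) 0 = _
      rw [ce0, dir0]; simp⟩
  · exact ⟨z.2 + k, by omega, by
      show ce (z + (k : ℤ) • dir 1) 1 = _
      rw [ce1, dir1]; simp⟩
  · exact ⟨z.1 - k - 1, by omega, by
      show ce (z + (k : ℤ) • dir 2) 2 = _
      rw [ce2, dir2]; simp; ring⟩
  · exact ⟨z.2 - k - 1, by omega, by
      show ce (z + (k : ℤ) • dir 3) 3 = _
      rw [ce3, dir3]; simp; ring⟩

theorem exists_ray {z : ℤ × ℤ} {r : Fin 4} {g : Ed} (hg : g ∈ Ray r z) :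
    ∃ k : ℕ, g = ce (z + (k : ℤ) • dir r) r := by
  fin_cases r
  · obtain ⟨x, hx, rfl⟩ := hg
    refine ⟨(x - z.1).toNat, ?_⟩
    show _ = ce (z + (((x - z.1).toNat : ℕ) : ℤ) • dir 0) 0
    rw [ce0, dir0, Int.toNat_of_nonneg (by omega)]; simp
  · obtain ⟨x, hx, rfl⟩ := hg
    refine ⟨(x - z.2).toNat, ?_⟩
    show _ = ce (z + (((x - z.2).toNat : ℕ) : ℤ) • dir 1) 1
    rw [ce1, dir1, Int.toNat_of_nonneg (by omega)]; simp
  · obtain ⟨x, hx, rfl⟩ := hg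
    refine ⟨(z.1 - 1 - x).toNat, ?_⟩
    show _ = ce (z + (((z.1 - 1 - x).toNat : ℕ) : ℤ) • dir 2) 2
    rw [ce2, dir2, Int.toNat_of_nonneg (by omega)]; simp; ring
  · obtain ⟨x, hx, rfl⟩ := hg
    refine ⟨(z.2 - 1 - x).toNat, ?_⟩
    show _ = ce (z + (((z.2 - 1 - x).toNat : ℕ) : ℤ) • dir 3) 3
    rw [ce3, dir3, Int.toNat_of_nonneg (by omega)]; simp; ring

theorem sg_ce (v : ℤ × ℤ) (r : Fin 4) :
    sg (ce v r) = if Even (v.1 + v.2) then - os r else os r := by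
  have h := sg_hb (ce v r)
  rw [plane_sg, hb_ce] at h
  rw [h]
  fin_cases r <;> by_cases hv : Even (v.1 + v.2) <;> simp [hv, os, inn]

/-! ### constants -/

theorem exists_pos_le {α : Type*} (s : Finset α) (f : α → ℝ) (h : ∀ x ∈ s, 0 < f x) :
    ∃ κ : ℝ, 0 < κ ∧ ∀ x ∈ s, κ ≤ f x := by
  classical
  induction s using Finset.induction_on with
  | empty => exact ⟨1, one_pos, by simp⟩
  | insert a s ha ih =>
    obtain ⟨κ, h1, h2⟩ := ih fun x hx => h x (mem_insert_of_mem hx)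
    refine ⟨min κ (f a), lt_min h1 (h a (mem_insert_self _ _)), fun x hx => ?_⟩
    rcases mem_insert.1 hx with rfl | hx
    · exact min_le_right _ _
    · exact (min_le_left _ _).trans (h2 x hx)

/-- The smallest distance of the marks. -/
theorem exists_kap (l : ℕ) (hQ : Q.Ok) : ∃ κ : ℝ, 0 < κ ∧
    (∀ i < l, ∀ j ≤ Q.m, κ ≤ Q.θ i (j + 1) - Q.θ i j) ∧
    (∀ j ≤ Q.m + 1, κ ≤ |Q.θ 0 j - Q.tp|) := by
  obtain ⟨κ1, h1, h2⟩ := exists_pos_le (range l ×ˢ range (Q.m + 1))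
    (fun x => Q.θ x.1 (x.2 + 1) - Q.θ x.1 x.2) (fun x hx => by
      rw [mem_product, mem_range, mem_range] at hx
      exact sub_pos.2 (hQ.lt _ _ (by omega)))
  obtain ⟨κ2, h3, h4⟩ := exists_pos_le (range (Q.m + 2))
    (fun j => |Q.θ 0 j - Q.tp|) (fun j hj => abs_pos.2 (sub_ne_zero.2 (hQ.tpne j)))
  refine ⟨min κ1 κ2, lt_min h1 h3, fun i hi j hj => (min_le_left _ _).trans
    (h2 (i, j) (mem_product.2 ⟨mem_range.2 hi, mem_range.2 (by omega)⟩)), fun j hj =>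
    (min_le_right _ _).trans (h4 j (mem_range.2 (by omega)))⟩

end Vale.Agent.P167.Enl
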