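import Vale.Agent.P167.XDL.Geo2

/-!
# P167, block XDL: geometry of the polygon with holes (proof of `GEO`)
-/

namespace Vale.Agent.P167.Enl

open Finset Filter
open Vale.Agent.P167.E6 (IsPolygon Encloses dir face)
open Vale.Agent.P167.H825 (dirOf tn enl pdir ptau Wall WC Marks rnd bsite sideWall pwall PW dv epos
  FlowIn)
open Vale.Agent.P167.BR (ce be ce0 ce1 ce2 ce3 be_injective ce_even ce_odd be_bd be_even be_odd eds
  mem_eds exists_be)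
open Vale.Agent.P167.XDL (bS mem_bS Gau)
open Vale.Agent.P167.H662 (PF fwall hsite tsite Bdy Ray os GeoAt GEO col)

variable {l : ℕ} {p : ZMod l → ℤ × ℤ} {n : ℕ} {S₀ : Finset (ℤ × ℤ)} {Q : Marks} {d : ℕ}

theorem mem_bS_bdy {D : Finset (ℤ × ℤ)} {e : Ed} : e ∈ bS D ↔ Bdy D e := by
  rw [mem_bS, Bdy]
  tauto

/-- The step `σ` of a side. -/
theorem step_mem (hp : IsPolygon p) (hD : Encloses p S₀) {i σ : ℕ} (hi : i < l) (hσ : σ < n) :
    (Even (((n : ℤ) • p (i : ℕ) + (σ : ℤ) • dir (pdir p i)).1 +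
        ((n : ℤ) • p (i : ℕ) + (σ : ℤ) • dir (pdir p i)).2) →
      hdv (ce ((n : ℤ) • p (i : ℕ) + (σ : ℤ) • dir (pdir p i)) (pdir p i)) ∈ enl S₀ n ∧
      tlv (ce ((n : ℤ) • p (i : ℕ) + (σ : ℤ) • dir (pdir p i)) (pdir p i)) ∉ enl S₀ n) ∧
    (¬ Even (((n : ℤ) • p (i : ℕ) + (σ : ℤ) • dir (pdir p i)).1 +
        ((n : ℤ) • p (i : ℕ) + (σ : ℤ) • dir (pdir p i)).2) →
      tlv (ce ((n : ℤ) • p (i : ℕ) + (σ : ℤ) • dir (pdir p i)) (pdir p i)) ∈ enl S₀ n ∧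
      hdv (ce ((n : ℤ) • p (i : ℕ) + (σ : ℤ) • dir (pdir p i)) (pdir p i)) ∉ enl S₀ n) := by
  have hn : 0 < n := by omega
  have h0 := be_kOf (t := 0) hn hp hi hn hσ
  have hq := isPolygon_qN hn hp 0
  have hE := encloses_qN hn hp hD 0
  have h1 := ro_unique' hn hp hi hσ
  have h2 : qN p n 0 ((kOf l n 0 i σ : ℕ) : ZMod (l * n)) =
      (n : ℤ) • p (i : ℕ) + (σ : ℤ) • dir (pdir p i) := h1
  rw [← h0, ← h2]
  exact ⟨fun h => (be_even hq hE h).2.2, fun h => (be_odd hq hE h).2.2⟩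
where
  ro_unique' (hn : 0 < n) (hp : IsPolygon p) {i σ : ℕ} (hi : i < l) (hσ : σ < n) :
      qN p n 0 ((kOf l n 0 i σ : ℕ) : ZMod (l * n)) =
        (n : ℤ) • p (i : ℕ) + (σ : ℤ) • dir (pdir p i) := by
    have : NeZero l := ⟨by omega⟩
    rw [qN_eq hn (kOf_add (l := l) (σ := σ) hi hn), PN_lin hn hσ]

/-- **gap** -/
theorem geo_gap (hp : IsPolygon p) (hD : Encloses p S₀) (hQ : Q.Ok) (hd : 1 ≤ d) (hn : 0 < n)
    (e : Ed) (he : Bdy (enl S₀ n) e) (he' : e ∉ (PW p Q n d 0).S) :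
    ∃ x, nm (hdv e - hsite p Q n x) ≤ d + 3 := by
  have hl := hp.1
  have : NeZero l := ⟨by omega⟩
  have ht := tB_lt hQ hn
  rw [← mem_bS_bdy, ← PF_S hp hD hQ hn 0] at he
  obtain ⟨⟨i, hi⟩, σ, -, hσ, rfl⟩ := ((wls_PF hp hD hQ hn 0).mem_S hp ht).1 he
  simp only at he' ⊢
  have hw : ∀ j ≤ Q.m, ¬ (sW p n Q d i j ≤ σ ∧ σ < eW p n Q d i j) := by
    rintro j hj ⟨h1, h2⟩
    exact he' (((wls_PW hp hD hQ hd 0).mem_S hp ht).2
      ⟨(⟨i, hi⟩, ⟨j, by omega⟩), σ, h1, h2, rfl⟩)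
  rw [be_kOf hn hp hi ht hσ]
  set v : ℤ × ℤ := (n : ℤ) • p (i : ℕ) + (σ : ℤ) • dir (pdir p i) with hv
  have hv1 := (ce_near v (pdir p i)).1
  have key : ∀ j ≤ Q.m, (∃ j' ≤ Q.m, σ ≤ ⌊Q.θ i j' * n⌋₊ + d ∧ ⌊Q.θ i j' * n⌋₊ ≤ σ + d) ∨
      sW p n Q d i j ≤ σ := by
    intro j
    induction j with
    | zero =>
      intro _
      by_cases h : sW p n Q d i 0 ≤ σ
      · exact Or.inr h
      · left
        refine ⟨0, Nat.zero_le _, ?_, ?_⟩
        · have := (le_rnd ((n : ℤ) • p i) (bsite p Q n) (⌊Q.θ i 0 * n⌋₊ + d)).2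
          unfold sW at h
          omega
        · rw [fl_zero hQ]; omega
    | succ j ih =>
      intro hj
      rcases ih (by omega) with h | h
      · exact Or.inl h
      · by_cases h1 : sW p n Q d i (j + 1) ≤ σ
        · exact Or.inr h1
        · left
          have h2 : ¬ σ < eW p n Q d i j := fun h' => hw j (by omega) ⟨h, h'⟩
          refine ⟨j + 1, hj, ?_, ?_⟩
          · have := (le_rnd ((n : ℤ) • p i) (bsite p Q n) (⌊Q.θ i (j + 1) * n⌋₊ + d)).2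
            unfold sW at h1
            omega
          · have := (le_rnd ((n : ℤ) • p i) (bsite p Q n) (⌊Q.θ i (j + 1) * n⌋₊ - d)).1
            unfold eW at h2
            omega
  have fin : (∃ j' ≤ Q.m, σ ≤ ⌊Q.θ i j' * n⌋₊ + d ∧ ⌊Q.θ i j' * n⌋₊ ≤ σ + d) ∨ n ≤ σ + d := by
    rcases key Q.m le_rfl with h | h
    · exact Or.inl h
    · right
      have h2 : ¬ σ < eW p n Q d i Q.m := fun h' => hw Q.m le_rfl ⟨h, h'⟩
      have := (le_rnd ((n : ℤ) • p i) (bsite p Q n) (⌊Q.θ i (Q.m + 1) * n⌋₊ - d)).1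
      unfold eW at h2
      rw [fl_one hQ] at this h2
      omega
  rcases fin with ⟨j', hj', h1, h2⟩ | h
  · refine ⟨(⟨i, hi⟩, ⟨j', by omega⟩), ?_⟩
    have h3 : nm (v - hsite p Q n (⟨i, hi⟩, ⟨j', by omega⟩)) ≤ d := by
      unfold hsite
      rw [hv]
      simp only
      rw [add_sub_add_left_eq_sub, ← sub_smul, nm_dir, abs_le]
      omega
    have := nm_tri (hdv (ce v (pdir p i))) v (hsite p Q n (⟨i, hi⟩, ⟨j', by omega⟩))
    omega
  · refine ⟨(⟨(i + 1) % l, Nat.mod_lt _ (by omega)⟩, ⟨0, by omega⟩), ?_⟩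
    have h3 : nm (v - hsite p Q n (⟨(i + 1) % l, Nat.mod_lt _ (by omega)⟩, ⟨0, by omega⟩)) ≤ d := by
      unfold hsite
      rw [hv]
      simp only
      rw [fl_zero hQ, Nat.cast_zero, zero_smul, add_zero, ZMod.natCast_mod]
      have e1 : p ((i + 1 : ℕ) : ZMod l) = p (i : ℕ) + dir (pdir p i) := by
        rw [← pdir_step hp]
        push_cast
        rfl
      rw [e1, smul_add, add_sub_add_left_eq_sub, ← sub_smul, nm_dir, abs_le]
      omega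
    have := nm_tri (hdv (ce v (pdir p i))) v
      (hsite p Q n (⟨(i + 1) % l, Nat.mod_lt _ (by omega)⟩, ⟨0, by omega⟩))
    omega

/-- Edges of a wall. -/
theorem mem_wall (hp : IsPolygon p) (hD : Encloses p S₀) (hQ : Q.Ok) (hd : 1 ≤ d) (hn : 0 < n)
    (x : Fin l × Fin (Q.m + 1)) (g : Ed) : g ∈ ((PW p Q n d 0).w x).S ↔
      ∃ σ, sW p n Q d x.1 x.2 ≤ σ ∧ σ < eW p n Q d x.1 x.2 ∧
        g = ce ((n : ℤ) • p (x.1 : ℕ) + (σ : ℤ) • dir (pdir p x.1)) (pdir p x.1) := by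
  have ht := tB_lt hQ hn
  rw [(wls_PW hp hD hQ hd 0).mem_wS hp ht]
  refine exists_congr fun σ => and_congr_right fun h1 => and_congr_right fun h2 => ?_
  rw [be_kOf hn hp x.1.2 ht (lt_n hQ hd (Nat.lt_succ_iff.1 x.2.2) h1 h2)]

theorem tsite_eq (x : Fin l × Fin (Q.m + 1)) (k : ℕ) :
    tsite p Q n d x + (k : ℤ) • dir (pdir p x.1) =
      (n : ℤ) • p (x.1 : ℕ) + ((sW p n Q d x.1 x.2 + k : ℕ) : ℤ) • dir (pdir p x.1) := by
  show (n : ℤ) • p (x.1 : ℕ) + ((sW p n Q d x.1 x.2 : ℕ) : ℤ) • dir (pdir p x.1) +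
    (k : ℤ) • dir (pdir p x.1) = _
  rw [Nat.cast_add, add_smul, add_assoc]

/-- **ray** -/
theorem geo_ray (hp : IsPolygon p) (hD : Encloses p S₀) (hQ : Q.Ok) (hd : 1 ≤ d) (hn : 0 < n)
    (x : Fin l × Fin (Q.m + 1)) (e : Ed) (he : e ∈ ((PW p Q n d 0).w x).S) :
    e ∈ Ray (pdir p x.1) (tsite p Q n d x) ∧
    (hdv e ∈ enl S₀ n ↔ sg e = - os (pdir p x.1)) ∧
    (tlv e ∈ enl S₀ n ↔ sg e = os (pdir p x.1)) := by
  obtain ⟨σ, h1, h2, rfl⟩ := (mem_wall hp hD hQ hd hn x e).1 he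
  have hσ := lt_n hQ hd (Nat.lt_succ_iff.1 x.2.2) h1 h2
  refine ⟨?_, ?_⟩
  · have h3 := ce_mem_ray (tsite p Q n d x) (pdir p x.1) (σ - sW p n Q d x.1 x.2)
    rwa [tsite_eq, Nat.add_sub_cancel' h1] at h3
  · obtain ⟨h3, h4⟩ := step_mem hp hD (n := n) x.1.2 hσ
    rw [sg_ce]
    have hos : os (pdir p x.1) = 1 ∨ os (pdir p x.1) = -1 := by
      unfold os; split_ifs <;> simp
    by_cases hv : Even (((n : ℤ) • p (x.1 : ℕ) + (σ : ℤ) • dir (pdir p x.1)).1 +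
        ((n : ℤ) • p (x.1 : ℕ) + (σ : ℤ) • dir (pdir p x.1)).2)
    · rw [if_pos hv]
      have h5 := h3 hv
      refine ⟨iff_of_true h5.1 rfl, iff_of_false h5.2 ?_⟩
      rcases hos with h | h <;> rw [h] <;> norm_num
    · rw [if_neg hv]
      have h5 := h4 hv
      refine ⟨iff_of_false h5.2 ?_, iff_of_true h5.1 rfl⟩
      rcases hos with h | h <;> rw [h] <;> norm_num

/-- **long** -/
theorem geo_long (hp : IsPolygon p) (hD : Encloses p S₀) (hQ : Q.Ok) (hd : 1 ≤ d) (hn : 0 < n)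
    {κ : ℝ} (hκ : ∀ i < l, ∀ j ≤ Q.m, κ ≤ Q.θ i (j + 1) - Q.θ i j) (hk : (d : ℝ) ≤ κ / 8 * n)
    (hn' : 12 ≤ κ * n)
    (x : Fin l × Fin (Q.m + 1)) (e : Ed) (he : e ∈ Ray (pdir p x.1) (tsite p Q n d x))
    (he' : (nm (hdv e - tsite p Q n d x) : ℝ) ≤ κ / 4 * n) : e ∈ ((PW p Q n d 0).w x).S := by
  obtain ⟨k, rfl⟩ := exists_ray he
  rw [mem_wall hp hD hQ hd hn]
  refine ⟨sW p n Q d x.1 x.2 + k, Nat.le_add_right _ _, ?_, by rw [tsite_eq]⟩
  have h1 := (ce_near (tsite p Q n d x + (k : ℤ) • dir (pdir p x.1)) (pdir p x.1)).1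
  have h2 := nm_tri (tsite p Q n d x + (k : ℤ) • dir (pdir p x.1))
    (hdv (ce (tsite p Q n d x + (k : ℤ) • dir (pdir p x.1)) (pdir p x.1))) (tsite p Q n d x)
  rw [nm_sub_comm] at h1
  rw [add_sub_cancel_left, nm_dir, Nat.abs_cast] at h2
  have h3 : (k : ℝ) ≤ κ / 4 * n + 1 := by
    have h4 : (k : ℤ) ≤ nm (hdv (ce (tsite p Q n d x + (k : ℤ) • dir (pdir p x.1)) (pdir p x.1)) -
      tsite p Q n d x) + 1 := by omega
    have h5 : (k : ℝ) ≤ (nm (hdv (ce (tsite p Q n d x + (k : ℤ) • dir (pdir p x.1)) (pdir p x.1)) -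
      tsite p Q n d x) : ℝ) + 1 := by exact_mod_cast h4
    linarith
  obtain ⟨⟨i, hi⟩, ⟨j, hj⟩⟩ := x
  simp only
  have e1 := (le_rnd ((n : ℤ) • p i) (bsite p Q n) (⌊Q.θ i j * n⌋₊ + d)).2
  have e2 := (le_rnd ((n : ℤ) • p i) (bsite p Q n) (⌊Q.θ i (j + 1) * n⌋₊ - d)).1
  have e3 := hκ i hi j (by omega)
  obtain ⟨f1, f2, -⟩ := fl hQ n i (show j ≤ Q.m + 1 by omega)
  obtain ⟨f3, f4, -⟩ := fl hQ n i (show j + 1 ≤ Q.m + 1 by omega)
  have hn0 : (0 : ℝ) ≤ n := by positivity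
  have key : ⌊Q.θ i j * n⌋₊ + d + 1 + k + d < ⌊Q.θ i (j + 1) * n⌋₊ := by
    have : ((⌊Q.θ i j * n⌋₊ + d + 1 + k + d : ℕ) : ℝ) < ((⌊Q.θ i (j + 1) * n⌋₊ : ℕ) : ℝ) := by
      push_cast
      nlinarith
    exact_mod_cast this
  unfold sW eW
  omega

/-- **tip** -/
theorem geo_tip (x : Fin l × Fin (Q.m + 1)) :
    nm (tsite p Q n d x - hsite p Q n x) ≤ d + 1 ∧
    col (tsite p Q n d x) = col (bsite p Q n) := by
  constructor
  · unfold tsite hsite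
    rw [add_sub_add_left_eq_sub, ← sub_smul, nm_dir, abs_le]
    have := le_rnd ((n : ℤ) • p (x.1 : ℕ)) (bsite p Q n) (⌊Q.θ x.1 x.2 * n⌋₊ + d)
    omega
  · unfold col tsite rnd
    congr 1
    rw [Int.even_iff, Int.even_iff, eq_iff_iff]
    generalize (n : ℤ) • p (x.1 : ℕ) = z
    generalize bsite p Q n = b
    generalize ⌊Q.θ x.1 x.2 * n⌋₊ + d = t
    have hd : (dir (pdir p x.1)).1 + (dir (pdir p x.1)).2 = 1 ∨
        (dir (pdir p x.1)).1 + (dir (pdir p x.1)).2 = -1 := by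
      generalize pdir p x.1 = r
      fin_cases r <;> simp [dir]
    simp only [Prod.fst_add, Prod.snd_add, Prod.smul_fst, Prod.smul_snd, smul_eq_mul]
    set T : ℤ := ((t + ((z.1 + z.2 + (t : ℤ) + b.1 + b.2) % 2).toNat : ℕ) : ℤ) with hT
    have h1 : z.1 + T * (dir (pdir p x.1)).1 + (z.2 + T * (dir (pdir p x.1)).2) =
        z.1 + z.2 + T * ((dir (pdir p x.1)).1 + (dir (pdir p x.1)).2) := by ring
    rw [h1]
    rcases hd with h | h <;> rw [h] <;> omega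

/-- **[GEO]** -/
theorem geo : GEO := by
  intro l _ p S₀ hp hD Q hQ
  obtain ⟨κ, h0, h1, h2⟩ := exists_kap l hQ
  have hl := hp.1
  have hk1 : κ ≤ 1 := by
    have h3 := theta_gap hQ h1 (show 0 < l by omega) (show 0 < Q.m + 1 by omega) le_rfl
    rw [hQ.zero, hQ.one] at h3
    linarith
  refine ⟨κ / 4, by positivity, κ / 8, by positivity, fun δ hδ hδ' => ?_⟩
  have ev1 : ∀ᶠ n : ℕ in atTop, 12 ≤ κ * n :=
    (tendsto_natCast_atTop_atTop.const_mul_atTop h0).eventually_ge_atTop 12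
  have ev2 : ∀ᶠ n : ℕ in atTop, 1 ≤ δ * n :=
    (tendsto_natCast_atTop_atTop.const_mul_atTop hδ).eventually_ge_atTop 1
  filter_upwards [ev1, ev2, eventually_gt_atTop 0] with n hn1 hn2 hn
  have hd : 1 ≤ ⌊δ * n⌋₊ := Nat.le_floor (by exact_mod_cast hn2)
  have hn0 : (0 : ℝ) ≤ n := by positivity
  have hd' : (⌊δ * n⌋₊ : ℝ) ≤ κ / 8 * n :=
    (Nat.floor_le (by positivity)).trans (mul_le_mul_of_nonneg_right hδ'.le hn0)
  exact {
    bdy := fun e he => mem_bS_bdy.1 (PW_S_sub hp hD hQ hd hn 0 he)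
    gap := geo_gap hp hD hQ hd hn
    far := fun x y hxy => by
      have := hsite_far (n := n) hQ h1 hp hk1 hxy
      linarith
    farb := fun x => by
      have := hsite_farb (n := n) hQ hp h2 x
      linarith
    ray := geo_ray hp hD hQ hd hn
    long := geo_long hp hD hQ hd hn h1 hd' hn1
    tip := geo_tip
    full := fun e => by rw [PF_S hp hD hQ hn, mem_bS_bdy]
    ph := fun c e he => ph_eq hp hD hQ hd hn c e he }

end Vale.Agent.P167.Enl
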