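import Vale.Agent.P167.H199.CutPlane
import Vale.Agent.P167.BR.Defs

/-!
# P167, block XDL: the cut polygon, definitions

`bS D`: the edges which enter or leave the finite set of squares `D`. `Xout D a`: the product of the
factors of the strands outside `D`.
-/

namespace Vale.Agent.P167.XDL

open Finset
open Vale.Agent.P167.A (plane)
open Vale.Agent.P167.H199 (cang strand)
open Vale.Agent.P167.BR (eds)

/-- The edges with exactly one of their two squares in `D`. -/
def bS (D : Finset (ℤ × ℤ)) : Finset Ed := (eds D).filter fun e => ¬ (hdv e ∈ D ∧ tlv e ∈ D)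

/-- The product over the strands outside `D`. -/
noncomputable def Xout (D : Finset (ℤ × ℤ)) (a : Ed → Bool → ℝ) (ω : Cfg) : ℝ :=
  ∏ e ∈ (bS D).filter (fun e => hdv e ∉ D),
    2 * Real.cos (cang plane (Real.pi / 3) a ω (strand (nx ω) (bS D) e))

end Vale.Agent.P167.XDL
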