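import Vale.Agent.P167.H825.Defs2A
import Vale.Agent.P167.BR.Basic

/-!
# P167, block XDL: summation by parts for flows
-/

namespace Vale.Agent.P167.XDL

open Finset
open Vale.Agent.P167.BR (eds sites PotD mem_eds ls_mem_sites rs_mem_sites)
open Vale.Agent.P167.H825 (dv)

/-- The upper / left site of a medial edge. -/
def us : Ed → ℤ × ℤ
  | Sum.inl v => (v.1 + 1, v.2 + 1)
  | Sum.inr v => (v.1, v.2 + 1)

/-- The lower / right site of a medial edge. -/
def ds : Ed → ℤ × ℤ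
  | Sum.inl v => (v.1 + 1, v.2)
  | Sum.inr v => (v.1 + 1, v.2 + 1)

theorem us_ds (e : Ed) : (sg e = 1 ∧ ls e = us e ∧ rs e = ds e) ∨
    (sg e = -1 ∧ rs e = us e ∧ ls e = ds e) := by
  rcases e with ⟨x, y⟩ | ⟨x, y⟩ <;> by_cases h : Even (x + y) <;> simp [sg, ls, rs, us, ds, h]

theorem us_mem {D : Finset (ℤ × ℤ)} {e : Ed} (he : e ∈ eds D) : us e ∈ sites D ∧ ds e ∈ sites D := by
  rcases us_ds e with ⟨-, h1, h2⟩ | ⟨-, h1, h2⟩ <;> rw [← h1, ← h2]
  · exact ⟨ls_mem_sites he, rs_mem_sites he⟩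
  · exact ⟨rs_mem_sites he, ls_mem_sites he⟩

theorem dv_sum {c : Ed → ℝ} {E : Finset Ed} (hc : ∀ e ∉ E, c e = 0) (z : ℤ × ℤ) :
    dv c z = ∑ e ∈ E, c e * ((if us e = z then 1 else 0) - (if ds e = z then 1 else 0)) := by
  classical
  have h1 : ∀ e : Ed, us e = z → e = Sum.inl (z.1 - 1, z.2 - 1) ∨ e = Sum.inr (z.1, z.2 - 1) := by
    rintro (⟨x, y⟩ | ⟨x, y⟩) rfl <;> simp [us]
  have h2 : ∀ e : Ed, ds e = z → e = Sum.inl (z.1 - 1, z.2) ∨ e = Sum.inr (z.1 - 1, z.2 - 1) := by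
    rintro (⟨x, y⟩ | ⟨x, y⟩) rfl <;> simp [ds]
  set T : Finset Ed := {Sum.inl (z.1 - 1, z.2 - 1), Sum.inl (z.1 - 1, z.2), Sum.inr (z.1, z.2 - 1),
    Sum.inr (z.1 - 1, z.2 - 1)} with hT
  have h3 : ∀ e ∉ T, c e * ((if us e = z then (1 : ℝ) else 0) - (if ds e = z then 1 else 0)) = 0 := by
    intro e he
    rw [hT] at he
    simp only [mem_insert, mem_singleton, not_or] at he
    rw [if_neg, if_neg]
    · simp
    · intro h
      rcases h2 e h with h | h
      · exact he.2.1 h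
      · exact he.2.2.2 h
    · intro h
      rcases h1 e h with h | h
      · exact he.1 h
      · exact he.2.2.1 h
  have h4 : ∑ e ∈ E, c e * ((if us e = z then (1 : ℝ) else 0) - (if ds e = z then 1 else 0)) =
      ∑ e ∈ T, c e * ((if us e = z then (1 : ℝ) else 0) - (if ds e = z then 1 else 0)) := by
    refine (sum_subset (subset_union_left : E ⊆ E ∪ T) (fun e _ he => ?_)).trans
      (sum_subset (subset_union_right : T ⊆ E ∪ T) (fun e _ he => h3 e he)).symm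
    rw [hc e he, zero_mul]
  have n1 : ∀ x : ℤ, ¬ x = x - 1 := fun x => by omega
  rw [h4, hT, sum_insert (by simp), sum_insert (by simp), sum_insert (by simp [n1]), sum_singleton]
  obtain ⟨a, b⟩ := z
  simp only [us, ds, dv]
  simp
  ring

/-- **Summation by parts.** -/
theorem stokes {D : Finset (ℤ × ℤ)} {c : Ed → ℝ} (hc : ∀ e ∉ eds D, c e = 0) (U : ℤ × ℤ → ℝ) :
    ∑ z ∈ sites D, dv c z * U z = ∑ e ∈ eds D, c e * (U (us e) - U (ds e)) := by
  simp only [dv_sum hc, sum_mul]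
  rw [sum_comm]
  refine sum_congr rfl fun e he => ?_
  obtain ⟨h1, h2⟩ := us_mem he
  simp only [mul_sub, sub_mul, mul_assoc, ite_mul, one_mul, zero_mul, mul_ite, mul_zero,
    sum_sub_distrib]
  rw [sum_ite_eq, sum_ite_eq, if_pos h1, if_pos h2]

/-- The flow through a piece. -/
theorem flow_piece {D : Finset (ℤ × ℤ)} {A : Finset Ed} {u : ℤ × ℤ → ℤ} (hA : A ⊆ eds D)
    (hu : PotD D A u) {c : Ed → ℝ} (hc : ∀ e ∉ eds D, c e = 0) (k : ℤ) :
    ∑ e ∈ A, c e * sg e = ∑ z ∈ sites D, dv c z * (u z - k : ℤ) := by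
  classical
  rw [stokes hc (fun z => ((u z - k : ℤ) : ℝ))]
  have h1 : ∑ e ∈ A, c e * sg e = ∑ e ∈ eds D, if e ∈ A then c e * (sg e : ℝ) else 0 := by
    rw [← sum_filter]
    refine sum_congr ?_ fun _ _ => rfl
    ext e
    rw [mem_filter]
    exact ⟨fun h => ⟨hA h, h⟩, fun h => h.2⟩
  rw [h1]
  refine sum_congr rfl fun e he => ?_
  have h2 := hu e he
  rcases us_ds e with ⟨h3, h4, h5⟩ | ⟨h3, h4, h5⟩ <;> rw [h4, h5] at h2 <;> rw [h2, h3] <;>
    split_ifs <;> push_cast <;> ring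

end Vale.Agent.P167.XDL
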