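import Vale.Agent.P167.H871.DomT
import Vale.Agent.P167.H685.Sid
import Vale.Agent.P167.XDL.Defs
import Vale.Agent.P167.XDL.Pot
import Vale.Agent.P167.XDL.Stokes

/-!
# P167, block XDL: the strands and the loops of the domain of a polygon in the gauge of the polygon
-/

namespace Vale.Agent.P167.XDL

open Finset
open Vale.Agent.P167.A (plane plane_nx plane_hd plane_sg)
open Vale.Agent.P167.H199 (cang strand ret ah at' hb mem_strand sum_strand strand_injOn ret_min)
open Vale.Agent.P167.E6 (IsPolygon Encloses dir face)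
open Vale.Agent.P167.E2 (ro ro_spec)
open Vale.Agent.P167.H871 (Bd P4 P4_inj M4 bd_cross strand_turn vec_fin)
open Vale.Agent.P167.H685 (plane_turn)
open Vale.Agent.P167.BR
open Vale.Agent.P167.H825 (dv)

theorem mem_bS {D : Finset (ℤ × ℤ)} {e : Ed} : e ∈ bS D ↔
    (hdv e ∈ D ∧ tlv e ∉ D) ∨ (hdv e ∉ D ∧ tlv e ∈ D) := by
  unfold bS
  rw [mem_filter, mem_eds]
  tauto

/-! ### the strand of an entering edge -/

variable {D : Finset (ℤ × ℤ)} {ω : Cfg} {e : Ed}

/-- The strand of an entering edge. -/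
theorem strand_in (h1 : hdv e ∈ D) (h2 : tlv e ∉ D) : ∃ m, 1 ≤ m ∧ ret (nx ω) (bS D) e = m ∧
    (∀ k < m, hdv ((nx ω)^[k] e) ∈ D) ∧ hdv ((nx ω)^[m] e) ∉ D ∧
    (nx ω)^[m] e ∉ strand (nx ω) (bS D) e ∧
    piece ω D e = insert ((nx ω)^[m] e) (strand (nx ω) (bS D) e) := by
  have he : e ∈ eds D := mem_eds.2 (Or.inl h1)
  have hA := piece_mem_pcs (ω := ω) he
  have heA := self_mem_piece (ω := ω) he
  have hnl : ¬ IsLp D (piece ω D e) := fun h => h2 (h.tl hA heA)
  obtain ⟨x, hx, hxD⟩ := exists_exit hnl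
  obtain ⟨m, hm⟩ := run_of_mem hA heA hx
  have hm' : Run ω D e m x := by
    rcases hm with hm | hm
    · exact hm
    · rcases Nat.eq_zero_or_pos m with rfl | h0
      · rw [show x = e from hm.1]; exact Run.zero e
      · exact absurd (hm.2 0 h0) hxD
  clear hm
  have hm1 : 1 ≤ m := by
    rcases Nat.eq_zero_or_pos m with rfl | h0
    · rw [← hm'.1] at hxD
      exact absurd h1 hxD
    · exact h0
  have hxe : (nx ω)^[m] e = x := hm'.1
  have htl : ∀ k, 1 ≤ k → k ≤ m → tlv ((nx ω)^[k] e) ∈ D := by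
    intro k hk hk'
    obtain ⟨j, rfl⟩ : ∃ j, k = j + 1 := ⟨k - 1, by omega⟩
    rw [Function.iterate_succ_apply', tlv_nx]
    exact hm'.2 j (by omega)
  have hret : ret (nx ω) (bS D) e = m := by
    apply le_antisymm
    · apply H199.ret_le hm1
      rw [mem_bS]
      exact Or.inr ⟨by rw [hxe]; exact hxD, htl m hm1 le_rfl⟩
    · by_contra hlt
      push Not at hlt
      have hR : H199.Returns (nx ω) (bS D) e := ⟨m, hm1, by
        rw [mem_bS]
        exact Or.inr ⟨by rw [hxe]; exact hxD, htl m hm1 le_rfl⟩⟩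
      obtain ⟨h3, h4⟩ := hR.spec
      rw [mem_bS] at h4
      rcases h4 with ⟨_, h4⟩ | ⟨h4, _⟩
      · exact h4 (htl _ h3 hlt.le)
      · exact h4 (hm'.2 _ hlt)
  refine ⟨m, hm1, hret, hm'.2, by rw [hxe]; exact hxD, ?_, ?_⟩
  · rw [mem_strand, hret]
    rintro ⟨k, hk, hk'⟩
    apply hxD
    rw [← hxe, ← hk']
    exact hm'.2 k hk
  · ext y
    rw [mem_insert, mem_strand, hret]
    constructor
    · intro hy
      obtain ⟨k, hk | hk⟩ := run_of_mem hA heA hy
      · rcases lt_trichotomy k m with h | h | h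
        · exact Or.inr ⟨k, h, hk.1⟩
        · exact Or.inl (by rw [← h]; exact hk.1.symm)
        · exact absurd (hk.2 m h) (by rw [hxe]; exact hxD)
      · rcases Nat.eq_zero_or_pos k with rfl | h0
        · exact Or.inr ⟨0, by omega, (show y = e from hk.1).symm⟩
        · exfalso
          apply h2
          obtain ⟨j, rfl⟩ : ∃ j, k = j + 1 := ⟨k - 1, by omega⟩
          rw [← hk.1, Function.iterate_succ_apply', tlv_nx]
          exact hk.2 j (by omega)
    · rintro (rfl | ⟨k, hk, rfl⟩)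
      · exact (mem_of_run hA (⟨rfl, hm'.2⟩ : Run ω D e m ((nx ω)^[m] e))).1 heA
      · exact (mem_of_run hA (⟨rfl, fun j hj => hm'.2 j (by omega)⟩ :
          Run ω D e k ((nx ω)^[k] e))).1 heA

/-! ### phases -/

theorem ah_add_at (a : Ed → Bool → ℝ) (e : Ed) :
    ah plane a e + at' plane a e = (a e false + a e true) * sg e := by
  unfold ah at' hb
  rw [plane_sg]
  rcases sg_cases' e with h | h <;> rw [h] <;> simp <;> ring
where
  sg_cases' (e : Ed) : sg e = 1 ∨ sg e = -1 := by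
    rcases e with ⟨x, y⟩ | ⟨x, y⟩ <;> simp only [sg] <;> split_ifs <;> simp

/-- The angle of the strand of an entering edge. -/
theorem cang_in {a : Ed → Bool → ℝ} {c : Ed → ℝ} (hoff : ∀ e ∉ bS D, a e false + a e true = c e)
    (hsup : ∀ e, c e ≠ 0 → hdv e ∈ D ∧ tlv e ∈ D) (h1 : hdv e ∈ D) (h2 : tlv e ∉ D) {m : ℕ}
    (hm : 1 ≤ m) (hr : ret (nx ω) (bS D) e = m) (hx : hdv ((nx ω)^[m] e) ∉ D)
    (hn : (nx ω)^[m] e ∉ strand (nx ω) (bS D) e)
    (hp : piece ω D e = insert ((nx ω)^[m] e) (strand (nx ω) (bS D) e)) :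
    cang plane (Real.pi / 3) a ω (strand (nx ω) (bS D) e) =
      Real.pi / 12 * ((∑ k ∈ range m, trn ω ((nx ω)^[k] e) : ℤ) : ℝ) + ah plane a e +
        at' plane a ((nx ω)^[m] e) + ∑ x ∈ piece ω D e, c x * sg x := by
  have heS : e ∈ bS D := mem_bS.2 (Or.inl ⟨h1, h2⟩)
  have hinj : Function.Injective (nx ω) := (s_nx ω).1
  have c0 : c e = 0 := by
    by_contra h
    exact h2 (hsup e h).2
  have cm : c ((nx ω)^[m] e) = 0 := by
    by_contra h
    exact hx (hsup _ h).1
  rw [hp, sum_insert hn, cm, zero_mul, zero_add, sum_strand hinj heS, hr]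
  unfold cang
  rw [sum_strand hinj heS, hr]
  obtain ⟨m', rfl⟩ : ∃ m', m = m' + 1 := ⟨m - 1, by omega⟩
  rw [sum_add_distrib, sum_add_distrib]
  have e1 : ∑ k ∈ range (m' + 1), Real.pi / 3 / 4 * ((plane.turn ω ((nx ω)^[k] e) : ℤ) : ℝ) =
      Real.pi / 12 * ((∑ k ∈ range (m' + 1), trn ω ((nx ω)^[k] e) : ℤ) : ℝ) := by
    simp only [plane_turn]
    rw [← mul_sum, Int.cast_sum]
    congr 1
    ring
  rw [e1]
  have e2 : ∀ k, plane.nx ω ((nx ω)^[k] e) = (nx ω)^[k + 1] e := fun k => by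
    rw [plane_nx, Function.iterate_succ_apply']
  simp only [e2]
  rw [sum_range_succ' (fun k => ah plane a ((nx ω)^[k] e)),
    sum_range_succ (fun k => at' plane a ((nx ω)^[k + 1] e)),
    sum_range_succ' (fun k => c ((nx ω)^[k] e) * ((sg ((nx ω)^[k] e) : ℤ) : ℝ))]
  have e3 : ∑ k ∈ range m', (c ((nx ω)^[k + 1] e) * ((sg ((nx ω)^[k + 1] e) : ℤ) : ℝ)) =
      ∑ k ∈ range m', ah plane a ((nx ω)^[k + 1] e) +
        ∑ k ∈ range m', at' plane a ((nx ω)^[k + 1] e) := by
    rw [← sum_add_distrib]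
    refine sum_congr rfl fun k hk => ?_
    rw [mem_range] at hk
    rw [ah_add_at, hoff]
    exact ret_min (by omega) (by omega)
  rw [e3]
  simp only [Function.iterate_zero, id, c0, zero_mul, add_zero]
  ring

end Vale.Agent.P167.XDL
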