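import Vale.Agent.P167.XDL.EnlQ

/-!
# P167, block XDL: phases of walls along the sides of a polygon
-/

namespace Vale.Agent.P167.Enl

open Finset
open Vale.Agent.P167.E6 (IsPolygon Encloses dir face)
open Vale.Agent.P167.H825 (dirOf tn enl pdir ptau Wall WC Marks rnd bsite sideWall pwall PW)
open Vale.Agent.P167.BR (ce be ce0 ce1 ce2 ce3 be_injective ce_even ce_odd be_bd be_even be_odd)
open Vale.Agent.P167.E2 (ro ro_spec ro_unique)
open Vale.Agent.P167.H871 (Bd)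
open Vale.Agent.P167.H199 (hb ah at')
open Vale.Agent.P167.A (plane plane_sg)

/-! ### the head side of a crossing edge -/

theorem hb_ce (v : ℤ × ℤ) (r : Fin 4) :
    hb plane (ce v r) = if Even (v.1 + v.2) then inn r else !inn r := by
  unfold hb
  rw [plane_sg]
  obtain ⟨x, y⟩ := v
  have e1 : Even (x + (y - 1)) ↔ ¬ Even (x + y) := by
    rw [Int.even_iff, Int.even_iff]; omega
  have e2 : Even (x - 1 + y) ↔ ¬ Even (x + y) := by
    rw [Int.even_iff, Int.even_iff]; omega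
  have e3 : Even (x - 1 + (y - 1)) ↔ Even (x + y) := by
    rw [Int.even_iff, Int.even_iff]; omega
  by_cases h : Even (x + y)
  · fin_cases r
    · show decide (sg (ce (x, y) 0) = 1) = _
      rw [ce0]; simp [sg, e1, h, inn]
    · show decide (sg (ce (x, y) 1) = 1) = _
      rw [ce1]; simp [sg, e2, h, inn]
    · show decide (sg (ce (x, y) 2) = 1) = _
      rw [ce2]; simp [sg, e3, h, inn]
    · show decide (sg (ce (x, y) 3) = 1) = _
      rw [ce3]; simp [sg, e3, h, inn]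
  · fin_cases r
    · show decide (sg (ce (x, y) 0) = 1) = _
      rw [ce0]; simp [sg, e1, h, inn]
    · show decide (sg (ce (x, y) 1) = 1) = _
      rw [ce1]; simp [sg, e2, h, inn]
    · show decide (sg (ce (x, y) 2) = 1) = _
      rw [ce2]; simp [sg, e3, h, inn]
    · show decide (sg (ce (x, y) 3) = 1) = _
      rw [ce3]; simp [sg, e3, h, inn]

theorem sg_hb (e : Ed) : plane.sg e = if hb plane e then 1 else -1 := by
  unfold hb
  rcases e with v | v <;> rw [plane_sg] <;> simp only [sg] <;> split_ifs <;> simp_all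

/-- Phases of the two sides of an edge with the phases `hPh` (and no flow). -/
theorem ah_hPh {a : Ed → Bool → ℝ} {e : Ed} {r : Fin 4} {φ : ℝ} (h : ∀ b, a e b = hPh r φ b) :
    ah plane a e = fPh r φ (hb plane e) ∧ at' plane a e = - fPh r φ (!hb plane e) := by
  unfold ah at'
  rw [sg_hb, h, h]
  unfold hPh
  cases hb plane e <;> simp

/-! ### families of walls along the sides -/

variable {l : ℕ} {p : ZMod l → ℤ × ℤ} {n t : ℕ} {S₀ : Finset (ℤ × ℤ)}

/-- A family of walls: the wall `x` is the part `s x ≤ σ < e x` of the side `i x` of the `n`-fold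
enlargement. -/
structure Wls {ι : Type} [Fintype ι] (p : ZMod l → ℤ × ℤ) (n t : ℕ) (W : WC ι) (i s e : ι → ℕ)
    (a : ι → ℝ) (o : ι → Option ℕ) : Prop where
  eq : ∀ x, W.w x = sideWall ((n : ℤ) • p (i x : ℕ)) (pdir p (i x)) (s x) (e x) (a x) (o x)
  lt : ∀ x, i x < l
  en : ∀ x σ, s x ≤ σ → σ < e x → σ < n
  ph : ∀ x σ, s x ≤ σ → σ < e x → sPh (a x) (o x) σ =
    Real.pi / 12 * ptau p ((kOf l n t (i x) σ + t) / n)
  dis : ∀ x y σ, i x = i y → s x ≤ σ → σ < e x → s y ≤ σ → σ < e y → x = y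

/-- Steps of the same kind are equal. -/
theorem kOf_inj (ht : t < n) {i i' σ σ' : ℕ} (hi : i < l) (hi' : i' < l) (hσ : σ < n)
    (hσ' : σ' < n) (h : kOf l n t i σ = kOf l n t i' σ') : i = i' ∧ σ = σ' := by
  have h1 : (i + 1) * n ≤ l * n := Nat.mul_le_mul_right n hi
  have h1' : (i' + 1) * n ≤ l * n := Nat.mul_le_mul_right n hi'
  rw [add_mul, one_mul] at h1 h1'
  have h2 : i * n + σ = i' * n + σ' := by
    unfold kOf at h
    split_ifs at h <;> omega
  have hn : 0 < n := by omega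
  have h3 : i = i' := by
    have h4 : (i * n + σ) / n = i := by
      rw [add_comm, Nat.add_mul_div_right _ _ hn, Nat.div_eq_of_lt hσ, zero_add]
    have h5 : (i' * n + σ') / n = i' := by
      rw [add_comm, Nat.add_mul_div_right _ _ hn, Nat.div_eq_of_lt hσ', zero_add]
    rw [← h4, ← h5, h2]
  subst h3
  exact ⟨rfl, by omega⟩

/-- Every step is a step of a side. -/
theorem exists_kOf (ht : t < n) {k : ℕ} (hk : k < l * n) :
    ∃ i σ, i < l ∧ σ < n ∧ k = kOf l n t i σ := by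
  have hn : 0 < n := by omega
  have key : ∀ m, m < l * n → ∃ i σ, i < l ∧ σ < n ∧ m = i * n + σ := by
    intro m hm
    refine ⟨m / n, m % n, ?_, Nat.mod_lt _ hn, ?_⟩
    · exact Nat.div_lt_of_lt_mul (by rwa [mul_comm])
    · rw [mul_comm]; exact (Nat.div_add_mod m n).symm
  rcases lt_or_ge (k + t) (l * n) with h | h
  · obtain ⟨i, σ, h1, h2, h3⟩ := key _ h
    refine ⟨i, σ, h1, h2, ?_⟩
    unfold kOf
    rw [if_pos (by omega)]
    omega
  · have hl : n ≤ l * n := Nat.le_mul_of_pos_left n (by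
      rcases Nat.eq_zero_or_pos l with h0 | h0
      · rw [h0, zero_mul] at hk; omega
      · exact h0)
    obtain ⟨i, σ, h1, h2, h3⟩ := key (k + t - l * n) (by omega)
    refine ⟨i, σ, h1, h2, ?_⟩
    unfold kOf
    rw [if_neg (by omega)]
    omega

section

variable {ι : Type} [Fintype ι] {W : WC ι} {i s e : ι → ℕ} {a : ι → ℝ} {o : ι → Option ℕ}

/-- The edge of a step of a wall. -/
theorem Wls.edge (h : Wls p n t W i s e a o) (hp : IsPolygon p) (ht : t < n) {x : ι} {σ : ℕ}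
    (h1 : s x ≤ σ) (h2 : σ < e x) :
    (W.w x).e (idx (pdir p (i x)) (s x) (e x) σ) =
      be (qN p n t) ((kOf l n t (i x) σ : ℕ) : ZMod (l * n)) := by
  have hn : 0 < n := by omega
  rw [h.eq, sw_e _ _ _ _ h1 h2, be_kOf hn hp (h.lt x) ht (h.en x σ h1 h2)]

theorem Wls.mem_wS (h : Wls p n t W i s e a o) (hp : IsPolygon p) (ht : t < n) {x : ι} {g : Ed} :
    g ∈ (W.w x).S ↔ ∃ σ, s x ≤ σ ∧ σ < e x ∧
      g = be (qN p n t) ((kOf l n t (i x) σ : ℕ) : ZMod (l * n)) := by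
  unfold Wall.S
  rw [mem_image]
  constructor
  · rintro ⟨k, hk, rfl⟩
    rw [mem_range, h.eq, sw_L] at hk
    obtain ⟨σ, h1, h2, rfl⟩ := exists_idx (pdir p (i x)) hk
    exact ⟨σ, h1, h2, h.edge hp ht h1 h2⟩
  · rintro ⟨σ, h1, h2, rfl⟩
    refine ⟨idx (pdir p (i x)) (s x) (e x) σ, ?_, h.edge hp ht h1 h2⟩
    rw [mem_range, h.eq, sw_L]
    exact idx_lt _ h1 h2

theorem Wls.mem_S (h : Wls p n t W i s e a o) (hp : IsPolygon p) (ht : t < n) {g : Ed} :
    g ∈ W.S ↔ ∃ x σ, s x ≤ σ ∧ σ < e x ∧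
      g = be (qN p n t) ((kOf l n t (i x) σ : ℕ) : ZMod (l * n)) := by
  unfold WC.S
  rw [mem_biUnion]
  constructor
  · rintro ⟨x, -, hx⟩
    obtain ⟨σ, h1⟩ := (h.mem_wS hp ht).1 hx
    exact ⟨x, σ, h1⟩
  · rintro ⟨x, σ, h1⟩
    exact ⟨x, mem_univ _, (h.mem_wS hp ht).2 ⟨σ, h1⟩⟩

/-- Steps with the same edge are equal. -/
theorem be_kOf_inj (hp : IsPolygon p) (ht : t < n) {i i' σ σ' : ℕ} (hi : i < l) (hi' : i' < l)
    (hσ : σ < n) (hσ' : σ' < n) (h : be (qN p n t) ((kOf l n t i σ : ℕ) : ZMod (l * n)) =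
      be (qN p n t) ((kOf l n t i' σ' : ℕ) : ZMod (l * n))) : i = i' ∧ σ = σ' := by
  have hn : 0 < n := by omega
  have h1 := be_injective (isPolygon_qN hn hp t) h
  rw [ZMod.natCast_eq_natCast_iff'] at h1
  rw [Nat.mod_eq_of_lt (kOf_lt hi hσ ht), Nat.mod_eq_of_lt (kOf_lt hi' hσ' ht)] at h1
  exact kOf_inj ht hi hi' hσ hσ' h1

theorem Wls.wph_on (h : Wls p n t W i s e a o) (hp : IsPolygon p) (ht : t < n) {x : ι} {σ : ℕ}
    (h1 : s x ≤ σ) (h2 : σ < e x) (b : Bool) :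
    (W.w x).ph (be (qN p n t) ((kOf l n t (i x) σ : ℕ) : ZMod (l * n))) b =
      hPh (pdir p (i x)) (Real.pi / 12 * ptau p ((kOf l n t (i x) σ + t) / n)) b := by
  unfold Wall.ph
  have h3 : idx (pdir p (i x)) (s x) (e x) σ ∈ range (W.w x).L := by
    rw [mem_range, h.eq, sw_L]
    exact idx_lt _ h1 h2
  rw [sum_eq_single_of_mem _ h3]
  · rw [h.edge hp ht h1 h2, if_pos rfl, ← h.ph x σ h1 h2, h.eq]
    obtain ⟨h4, h5⟩ := sw_u ((n : ℤ) • p (i x : ℕ)) (pdir p (i x)) (a x) (o x) h1 h2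
    unfold hPh
    cases b
    · rw [if_neg Bool.false_ne_true, if_neg Bool.false_ne_true, h4]
    · rw [if_pos rfl, if_pos rfl, h5]
  · intro k hk hne
    rw [mem_range, h.eq, sw_L] at hk
    obtain ⟨σ', h1', h2', rfl⟩ := exists_idx (pdir p (i x)) hk
    rw [if_neg]
    rw [h.edge hp ht h1' h2']
    intro h4
    have h5 := be_kOf_inj hp ht (h.lt x) (h.lt x) (h.en x σ h1 h2) (h.en x σ' h1' h2') h4
    exact hne (by rw [h5.2])

theorem Wls.wph_off {w : Wall} {g : Ed} (hg : g ∉ w.S) (b : Bool) : w.ph g b = 0 := by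
  unfold Wall.ph
  refine sum_eq_zero fun k hk => ?_
  rw [if_neg]
  rintro rfl
  exact hg (mem_image_of_mem _ hk)

/-- The phases on the walls. -/
theorem Wls.ph_on (h : Wls p n t W i s e a o) (hp : IsPolygon p) (ht : t < n) {x : ι} {σ : ℕ}
    (h1 : s x ≤ σ) (h2 : σ < e x) (b : Bool) :
    W.ph (be (qN p n t) ((kOf l n t (i x) σ : ℕ) : ZMod (l * n))) b =
      hPh (pdir p (i x)) (Real.pi / 12 * ptau p ((kOf l n t (i x) σ + t) / n)) b +
        W.c (be (qN p n t) ((kOf l n t (i x) σ : ℕ) : ZMod (l * n))) / 2 := by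
  unfold WC.ph
  rw [sum_eq_single_of_mem x (mem_univ _), h.wph_on hp ht h1 h2]
  intro y _ hy
  refine Wls.wph_off ?_ b
  intro h3
  obtain ⟨σ', h4, h5, h6⟩ := (h.mem_wS hp ht).1 h3
  have h7 := be_kOf_inj hp ht (h.lt x) (h.lt y) (h.en x σ h1 h2) (h.en y σ' h4 h5) h6
  obtain ⟨h8, rfl⟩ := h7
  exact hy (h.dis x y σ h8 h1 h2 h4 h5).symm

/-- The phases off the walls. -/
theorem Wls.ph_off {g : Ed} (hg : g ∉ W.S) (b : Bool) : W.ph g b = W.c g / 2 := by
  unfold WC.ph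
  rw [sum_eq_zero, zero_add]
  intro y _
  refine Wls.wph_off ?_ b
  intro h3
  exact hg (mem_biUnion.2 ⟨y, mem_univ _, h3⟩)

end

end Vale.Agent.P167.Enl
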