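import Vale.Agent.P167.XDL.EnlR
import Vale.Agent.P167.XDL.Core
import Vale.Agent.P167.H662.GeoDefs

/-!
# P167, block XDL: the walls of the polygon with holes and of the closed polygon
-/

namespace Vale.Agent.P167.Enl

open Finset
open Vale.Agent.P167.E6 (IsPolygon Encloses dir face)
open Vale.Agent.P167.H825 (dirOf tn enl pdir ptau Wall WC Marks rnd bsite sideWall pwall PW dv epos
  FlowIn)
open Vale.Agent.P167.BR (ce be ce0 ce1 ce2 ce3 be_injective ce_even ce_odd be_bd be_even be_odd eds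
  mem_eds exists_be)
open Vale.Agent.P167.E2 (ro ro_spec ro_unique)
open Vale.Agent.P167.H871 (Bd)
open Vale.Agent.P167.H199 (hb ah at')
open Vale.Agent.P167.A (plane plane_sg)
open Vale.Agent.P167.XDL (bS mem_bS Gau)
open Vale.Agent.P167.H662 (PF fwall hsite tsite)

variable {l : ℕ} {p : ZMod l → ℤ × ℤ} {n : ℕ} {S₀ : Finset (ℤ × ℤ)} {Q : Marks} {d : ℕ}

/-- The polygon with holes. -/
theorem wls_PW (hp : IsPolygon p) (hD : Encloses p S₀) (hQ : Q.Ok) (hd : 1 ≤ d) (c : Ed → ℝ) :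
    Wls p n (tB n Q) (PW p Q n d c) (fun x => (x.1 : ℕ)) (fun x => sW p n Q d x.1 x.2)
      (fun x => eW p n Q d x.1 x.2) (fun x => aW p Q x.1 x.2) (fun x => oW n Q x.1 x.2) where
  eq x := rfl
  lt x := x.1.2
  en x σ h1 h2 := lt_n hQ hd (Nat.lt_succ_iff.1 x.2.2) h1 h2
  ph x σ h1 h2 := sPh_eq hp hD hQ hd x.1.2 (Nat.lt_succ_iff.1 x.2.2) h1 h2
  dis x y σ hi h1 h2 h3 h4 := by
    have key : ∀ (i j j' : ℕ), j < j' → j' ≤ Q.m → sW p n Q d i j ≤ σ → σ < eW p n Q d i j →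
        sW p n Q d i j' ≤ σ → σ < eW p n Q d i j' → False := by
      intro i j j' hj hj' g1 g2 g3 g4
      have k1 := (eW_le g1 g2).1
      have k2 := (eW_le g3 g4).2
      have k3 : ⌊Q.θ i (j + 1) * n⌋₊ ≤ ⌊Q.θ i j' * n⌋₊ :=
        Nat.floor_le_floor (mul_le_mul_of_nonneg_right (theta_mono hQ i hj (by omega))
          (by positivity))
      omega
    obtain ⟨i, j⟩ := x
    obtain ⟨i', j'⟩ := y
    have hi' : i = i' := Fin.ext hi
    subst hi'
    simp only [Prod.mk.injEq, true_and]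
    by_contra hne
    rcases lt_or_gt_of_ne hne with h | h
    · exact key i j j' h (Nat.lt_succ_iff.1 j'.2) h1 h2 h3 h4
    · exact key i j' j h (Nat.lt_succ_iff.1 j.2) h3 h4 h1 h2

/-- The closed polygon. -/
theorem wls_PF (hp : IsPolygon p) (hD : Encloses p S₀) (hQ : Q.Ok) (hn : 0 < n) (c : Ed → ℝ) :
    Wls p n (tB n Q) (PF p Q n c) (fun i : Fin l => (i : ℕ)) (fun _ => 0) (fun _ => n)
      (fun i => Real.pi / 12 * ptau p i + if (i : ℕ) = 0 then Real.pi / 3 else 0)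
      (fun i => if (i : ℕ) = 0 then some ⌊Q.tp * n⌋₊ else none) where
  eq x := rfl
  lt x := x.2
  en x σ _ h2 := h2
  ph x σ _ h2 := by
    have ht := tB_lt hQ hn
    rw [kOf_div h2 x.2 ht]
    obtain ⟨i, hi⟩ := x
    simp only
    unfold sPh
    have hp0 : ptau p 0 = 0 := rfl
    have hpl := ptau_l hp hD
    by_cases hi0 : i = 0
    · subst hi0
      rw [hp0, if_pos rfl, if_pos rfl]
      simp only [zero_mul, zero_add, add_zero, Int.cast_zero, mul_zero, Option.elim]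
      by_cases h7 : ⌊Q.tp * n⌋₊ ≤ σ
      · have h7' : tB n Q ≤ σ := h7
        rw [if_pos h7, if_pos h7', hp0]
        simp
      · have h7' : ¬ tB n Q ≤ σ := h7
        rw [if_neg h7, if_neg h7', hpl]
        push_cast
        ring
    · have h5 : n ≤ i * n := Nat.le_mul_of_pos_left n (by omega)
      rw [if_neg hi0, if_neg hi0, if_pos (by omega)]
      show Real.pi / 12 * (ptau p i : ℝ) + 0 - 0 = _
      ring
  dis x y σ hi _ _ _ _ := Fin.ext hi

/-! ### the cut edges -/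

theorem be_mem_bS (hn : 0 < n) (hp : IsPolygon p) (hD : Encloses p S₀) (t : ℕ)
    (k : ZMod (l * n)) : be (qN p n t) k ∈ bS (enl S₀ n) := by
  rw [mem_bS]
  have := be_bd (isPolygon_qN hn hp t) (encloses_qN hn hp hD t) k
  tauto

theorem Wls.sub {ι : Type} [Fintype ι] {W : WC ι} {t : ℕ} {i s e : ι → ℕ} {a : ι → ℝ}
    {o : ι → Option ℕ} (h : Wls p n t W i s e a o) (hp : IsPolygon p) (hD : Encloses p S₀)
    (ht : t < n) : W.S ⊆ bS (enl S₀ n) := by
  intro g hg
  obtain ⟨x, σ, -, -, rfl⟩ := (h.mem_S hp ht).1 hg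
  exact be_mem_bS (by omega) hp hD t _

theorem PF_S (hp : IsPolygon p) (hD : Encloses p S₀) (hQ : Q.Ok) (hn : 0 < n) (c : Ed → ℝ) :
    (PF p Q n c).S = bS (enl S₀ n) := by
  have ht := tB_lt hQ hn
  have hw := wls_PF hp hD hQ hn c
  refine Subset.antisymm (hw.sub hp hD ht) fun g hg => ?_
  have hl := hp.1
  have : NeZero l := ⟨by omega⟩
  have hln : NeZero (l * n) := ⟨by positivity⟩
  rw [mem_bS] at hg
  obtain ⟨k, rfl⟩ := exists_be (isPolygon_qN hn hp (tB n Q)) (encloses_qN hn hp hD (tB n Q))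
    (e := g) (mem_eds.2 (by tauto)) (by tauto)
  obtain ⟨i, σ, h1, h2, h3⟩ := exists_kOf ht (ZMod.val_lt k)
  refine (hw.mem_S hp ht).2 ⟨⟨i, h1⟩, σ, Nat.zero_le _, h2, ?_⟩
  rw [← h3, ZMod.natCast_zmod_val]

theorem PW_S_sub (hp : IsPolygon p) (hD : Encloses p S₀) (hQ : Q.Ok) (hd : 1 ≤ d) (hn : 0 < n)
    (c : Ed → ℝ) : (PW p Q n d c).S ⊆ bS (enl S₀ n) :=
  (wls_PW hp hD hQ hd c).sub hp hD (tB_lt hQ hn)

/-! ### the phases -/

/-- The phases on the walls, in terms of the steps of the polygon. -/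
theorem Wls.ph_be {ι : Type} [Fintype ι] {W : WC ι} {t : ℕ} {i s e : ι → ℕ} {a : ι → ℝ}
    {o : ι → Option ℕ} (h : Wls p n t W i s e a o) (hp : IsPolygon p) (ht : t < n) {k : ℕ}
    (hk : k < l * n) (hS : be (qN p n t) (k : ZMod (l * n)) ∈ W.S) (b : Bool) :
    W.ph (be (qN p n t) (k : ZMod (l * n))) b = hPh (pdir p ((k + t) / n))
      (Real.pi / 12 * uN p n t k - Real.pi / 12 * ((pdir p 0).val : ℕ)) b +
        W.c (be (qN p n t) (k : ZMod (l * n))) / 2 := by
  obtain ⟨i', σ, h1, h2, h3⟩ := exists_kOf ht hk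
  obtain ⟨x, σ', h4, h5, h6⟩ := (h.mem_S hp ht).1 hS
  rw [h3] at h6
  obtain ⟨h7, rfl⟩ := be_kOf_inj hp ht h1 (h.lt x) h2 (h.en x σ' h4 h5) h6
  rw [h3, h7, h.ph_on hp ht h4 h5]
  have hd := kOf_div (h.en x σ h4 h5) (h.lt x) ht
  have e1 : pdir p ((kOf l n t (i x) σ + t) / n) = pdir p (i x) := by
    rw [hd]
    split_ifs
    · rfl
    · rw [add_comm, pdir_add]
  rw [e1]
  congr 2
  unfold uN
  push_cast
  ring

/-- A wall configuration of the polygon with a flow in the interior: the phases at the two sides of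
the cuts. -/
theorem Wls.sides {ι : Type} [Fintype ι] {W : WC ι} {t : ℕ} {i s e : ι → ℕ} {a : ι → ℝ}
    {o : ι → Option ℕ} (h : Wls p n t W i s e a o) (hp : IsPolygon p) (hD : Encloses p S₀)
    (ht : t < n) {k : ℕ}
    (hk : k < l * n) (hS : be (qN p n t) (k : ZMod (l * n)) ∈ W.S)
    (hc : W.c (be (qN p n t) (k : ZMod (l * n))) = 0) :
    (hdv (be (qN p n t) (k : ZMod (l * n))) ∈ enl S₀ n →
      ah plane W.ph (be (qN p n t) (k : ZMod (l * n))) =
        Real.pi / 12 * uN p n t k - Real.pi / 12 * ((pdir p 0).val : ℕ) ∧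
      at' plane W.ph (be (qN p n t) (k : ZMod (l * n))) =
        -(Real.pi / 12 * uN p n t k - Real.pi / 12 * ((pdir p 0).val : ℕ) - Real.pi / 6)) ∧
    (tlv (be (qN p n t) (k : ZMod (l * n))) ∈ enl S₀ n →
      at' plane W.ph (be (qN p n t) (k : ZMod (l * n))) =
        -(Real.pi / 12 * uN p n t k - Real.pi / 12 * ((pdir p 0).val : ℕ)) ∧
      ah plane W.ph (be (qN p n t) (k : ZMod (l * n))) =
        Real.pi / 12 * uN p n t k - Real.pi / 12 * ((pdir p 0).val : ℕ) - Real.pi / 6) := by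
  have hn : 0 < n := by omega
  have hq := isPolygon_qN hn hp t
  have hE := encloses_qN hn hp hD t
  have hl := hp.1
  have : NeZero l := ⟨by omega⟩
  have h1 := ah_hPh (a := W.ph) (e := be (qN p n t) (k : ZMod (l * n)))
    (r := pdir p ((k + t) / n)) (φ := Real.pi / 12 * uN p n t k -
      Real.pi / 12 * ((pdir p 0).val : ℕ)) fun b => by
      rw [h.ph_be hp ht hk hS b, hc, zero_div, add_zero]
  rw [h1.1, h1.2]
  have h2 : ro (qN p n t) (k : ZMod (l * n)) = pdir p ((k + t) / n) :=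
    (ro_unique hq (qN_succ hn hp (by push_cast; ring))).symm
  have h3 := hb_ce (qN p n t (k : ZMod (l * n))) (pdir p ((k + t) / n))
  rw [← h2] at h3
  change hb plane (be (qN p n t) (k : ZMod (l * n))) = _ at h3
  rw [h3]
  by_cases hv : Even ((qN p n t (k : ZMod (l * n))).1 + (qN p n t (k : ZMod (l * n))).2)
  · obtain ⟨-, -, h4, h5⟩ := be_even hq hE hv
    rw [if_pos hv, h2]
    refine ⟨fun _ => ⟨?_, ?_⟩, fun h6 => absurd h6 h5⟩
    · unfold fPh; rw [if_pos rfl]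
    · unfold fPh; rw [if_neg (by cases inn (pdir p ((k + t) / n)) <;> simp)]
  · obtain ⟨-, -, h4, h5⟩ := be_odd hq hE hv
    rw [if_neg hv, h2]
    refine ⟨fun h6 => absurd h6 h5, fun _ => ⟨?_, ?_⟩⟩
    · unfold fPh; rw [Bool.not_not, if_pos rfl]
    · unfold fPh; rw [if_neg (by cases inn (pdir p ((k + t) / n)) <;> simp)]

/-! ### flows in the interior -/

theorem epos_near (e : Ed) : nm (hdv e - epos e) ≤ 1 ∧ nm (tlv e - epos e) ≤ 1 := by
  rcases e with v | v <;> simp only [hdv, tlv, epos, nm] <;> split_ifs <;> simp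

theorem flow_two {D : Finset (ℤ × ℤ)} {κ B : ℝ} {c : Ed → ℝ} (hc : FlowIn D κ B n c)
    (h1 : 1 ≤ κ * n) {e : Ed} (he : c e ≠ 0) : hdv e ∈ D ∧ tlv e ∈ D := by
  obtain ⟨h2, h3⟩ := epos_near e
  constructor
  · refine hc.sup e he _ (le_trans ?_ h1)
    exact_mod_cast h2
  · refine hc.sup e he _ (le_trans ?_ h1)
    exact_mod_cast h3

/-- **[V1]** The phases of the closed polygon are the phases of `XDL`. -/
theorem gau_PF (hp : IsPolygon p) (hD : Encloses p S₀) (hQ : Q.Ok) (hn : 0 < n) {κ B : ℝ}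
    {c : Ed → ℝ} (hc : FlowIn (enl S₀ n) κ B n c) (h1 : 1 ≤ κ * n) :
    Gau (qN p n (tB n Q)) (enl S₀ n) (uN p n (tB n Q)) (PF p Q n c).ph c
      (-(Real.pi / 12 * ((pdir p 0).val : ℕ))) := by
  have ht := tB_lt hQ hn
  have hw := wls_PF hp hD hQ hn c
  have hc0 : ∀ k : ZMod (l * n), c (be (qN p n (tB n Q)) k) = 0 := by
    intro k
    by_contra h
    have h2 := flow_two hc h1 h
    have h3 := be_mem_bS hn hp hD (tB n Q) k
    rw [mem_bS] at h3
    tauto
  refine ⟨fun k hk h => ?_, fun k hk h => ?_, fun e he => ?_, fun e he => flow_two hc h1 he⟩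
  · have h2 := ((hw.sides hp hD ht hk (by rw [PF_S hp hD hQ hn]; exact be_mem_bS hn hp hD _ _)
      (hc0 k)).1 h).1
    rw [h2]; ring
  · have h2 := ((hw.sides hp hD ht hk (by rw [PF_S hp hD hQ hn]; exact be_mem_bS hn hp hD _ _)
      (hc0 k)).2 h).1
    rw [h2]; ring
  · rw [← PF_S hp hD hQ hn c] at he
    rw [Wls.ph_off he, Wls.ph_off he]
    show c e / 2 + c e / 2 = c e
    ring

/-- The phases of the closed polygon at the outer sides of the cuts. -/
theorem out_PF (hp : IsPolygon p) (hD : Encloses p S₀) (hQ : Q.Ok) (hn : 0 < n) {κ B : ℝ}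
    {c : Ed → ℝ} (hc : FlowIn (enl S₀ n) κ B n c) (h1 : 1 ≤ κ * n) {k : ℕ} (hk : k < l * n) :
    (hdv (be (qN p n (tB n Q)) (k : ZMod (l * n))) ∉ enl S₀ n →
      ah plane (PF p Q n c).ph (be (qN p n (tB n Q)) (k : ZMod (l * n))) =
        Real.pi / 12 * uN p n (tB n Q) k + -(Real.pi / 12 * ((pdir p 0).val : ℕ)) -
          Real.pi / 6) ∧
    (tlv (be (qN p n (tB n Q)) (k : ZMod (l * n))) ∉ enl S₀ n →
      at' plane (PF p Q n c).ph (be (qN p n (tB n Q)) (k : ZMod (l * n))) =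
        -(Real.pi / 12 * uN p n (tB n Q) k + -(Real.pi / 12 * ((pdir p 0).val : ℕ)) -
          Real.pi / 6)) := by
  have ht := tB_lt hQ hn
  have hw := wls_PF hp hD hQ hn c
  have h3 := be_mem_bS hn hp hD (tB n Q) (k : ZMod (l * n))
  have hc0 : c (be (qN p n (tB n Q)) (k : ZMod (l * n))) = 0 := by
    by_contra h
    have h2 := flow_two hc h1 h
    rw [mem_bS] at h3
    tauto
  have h4 := hw.sides hp hD ht hk (by rw [PF_S hp hD hQ hn]; exact h3) hc0
  rw [mem_bS] at h3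
  constructor
  · intro h
    rw [(h4.2 (by tauto)).2]; ring
  · intro h
    rw [(h4.1 (by tauto)).2]; ring

/-- The base site is the site `0` of the enlarged polygon. -/
theorem qN_zero (hp : IsPolygon p) (hQ : Q.Ok) (hn : 0 < n) :
    qN p n (tB n Q) 0 = bsite p Q n := by
  have hl := hp.1
  have : NeZero l := ⟨by omega⟩
  have ht := tB_lt hQ hn
  rw [qN_eq hn (m := 0 * n + tB n Q) (by push_cast; ring), PN_lin hn ht]
  simp [bsite, tB]

/-- The phases of the polygon with holes and of the closed polygon agree off the holes. -/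
theorem ph_eq (hp : IsPolygon p) (hD : Encloses p S₀) (hQ : Q.Ok) (hd : 1 ≤ d) (hn : 0 < n)
    (c : Ed → ℝ) (e : Ed) (he : e ∉ (PF p Q n 0).S \ (PW p Q n d 0).S) :
    (PF p Q n c).ph e = (PW p Q n d c).ph e := by
  have ht := tB_lt hQ hn
  have hw := wls_PF hp hD hQ hn c
  have hw' := wls_PW (n := n) hp hD hQ hd c
  have h1 : (PW p Q n d 0).S ⊆ (PF p Q n 0).S := by
    rw [PF_S hp hD hQ hn]; exact PW_S_sub hp hD hQ hd hn 0
  funext b
  by_cases h2 : e ∈ (PW p Q n d c).S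
  · have h3 : e ∈ (PF p Q n c).S := h1 h2
    obtain ⟨x, σ, h4, h5, h6⟩ := (hw'.mem_S hp ht).1 h2
    have hk : kOf l n (tB n Q) x.1 σ < l * n :=
      kOf_lt x.1.2 (lt_n hQ hd (Nat.lt_succ_iff.1 x.2.2) h4 h5) ht
    subst h6
    rw [hw.ph_be hp ht hk h3, hw'.ph_be hp ht hk h2]
    rfl
  · have h3 : e ∉ (PF p Q n c).S := fun h => he (mem_sdiff.2 ⟨h, h2⟩)
    rw [Wls.ph_off h2, Wls.ph_off h3]
    rfl

end Vale.Agent.P167.Enl
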