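import Vale.Agent.P167.XDL.Enl2
import Vale.Agent.P167.H199.CutBkw

/-!
# P167, block XDL: the phases of the walls of a polygon
-/

namespace Vale.Agent.P167.Enl

open Finset
open Vale.Agent.P167.E6 (IsPolygon Encloses dir face)
open Vale.Agent.P167.H825 (dirOf tn enl pdir ptau Wall WC Marks rnd bsite sideWall pwall PW)
open Vale.Agent.P167.BR (ce be ce0 ce1 ce2 ce3 be_injective)
open Vale.Agent.P167.E2 (ro ro_spec ro_unique)
open Vale.Agent.P167.H871 (Bd)

/-- The inner face of a step in the direction `r` is the upper or right one. -/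
def inn (r : Fin 4) : Bool := r = 0 ∨ r = 3

/-- The phase of the face `b` of a step in the direction `r`: `φ` inside, `φ - π/6` outside. -/
noncomputable def fPh (r : Fin 4) (φ : ℝ) (b : Bool) : ℝ :=
  if b = inn r then φ else φ - Real.pi / 6

/-- The phase of the half arrow `b`. -/
noncomputable def hPh (r : Fin 4) (φ : ℝ) (b : Bool) : ℝ :=
  if b then fPh r φ b else - fPh r φ b

theorem fPh0 (φ : ℝ) : fPh 0 φ false = φ - Real.pi / 6 ∧ fPh 0 φ true = φ := ⟨rfl, rfl⟩
theorem fPh1 (φ : ℝ) : fPh 1 φ false = φ ∧ fPh 1 φ true = φ - Real.pi / 6 := ⟨rfl, rfl⟩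
theorem fPh2 (φ : ℝ) : fPh 2 φ false = φ ∧ fPh 2 φ true = φ - Real.pi / 6 := ⟨rfl, rfl⟩
theorem fPh3 (φ : ℝ) : fPh 3 φ false = φ - Real.pi / 6 ∧ fPh 3 φ true = φ := ⟨rfl, rfl⟩

/-- The index in the wall of the step `σ`. -/
def idx (r : Fin 4) (s e σ : ℕ) : ℕ := if r = 0 ∨ r = 1 then σ - s else e - 1 - σ

/-- The step of an index. -/
theorem exists_idx (r : Fin 4) {s e k : ℕ} (hk : k < e - s) :
    ∃ σ, s ≤ σ ∧ σ < e ∧ idx r s e σ = k := by
  unfold idx
  split_ifs
  · exact ⟨s + k, by omega, by omega, by omega⟩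
  · exact ⟨e - 1 - k, by omega, by omega, by omega⟩

theorem idx_lt (r : Fin 4) {s e σ : ℕ} (h1 : s ≤ σ) (h2 : σ < e) : idx r s e σ < e - s := by
  unfold idx
  split_ifs <;> omega

theorem idx_inj (r : Fin 4) {s e σ σ' : ℕ} (h1 : s ≤ σ) (h2 : σ < e) (h1' : s ≤ σ') (h2' : σ' < e)
    (h : idx r s e σ = idx r s e σ') : σ = σ' := by
  unfold idx at h
  split_ifs at h <;> omega

theorem sw_L (z : ℤ × ℤ) (r : Fin 4) (s e : ℕ) (a : ℝ) (t0 : Option ℕ) :
    (sideWall z r s e a t0).L = e - s := by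
  fin_cases r <;> rfl

theorem sw_e (z : ℤ × ℤ) (r : Fin 4) {s e σ : ℕ} (a : ℝ) (t0 : Option ℕ) (h1 : s ≤ σ)
    (h2 : σ < e) : (sideWall z r s e a t0).e (idx r s e σ) = ce (z + (σ : ℤ) • dir r) r := by
  obtain ⟨x, y⟩ := z
  fin_cases r
  · show Sum.inr (x + (s : ℤ) + ((σ - s : ℕ) : ℤ), y - 1) = ce ((x, y) + (σ : ℤ) • dir 0) 0
    rw [ce0, dir0]
    simp only [Prod.smul_mk, smul_eq_mul, Prod.mk_add_mk, mul_one, mul_zero, add_zero,
      Sum.inr.injEq, Prod.mk.injEq, and_true]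
    omega
  · show Sum.inl (x - 1, y + (s : ℤ) + ((σ - s : ℕ) : ℤ)) = ce ((x, y) + (σ : ℤ) • dir 1) 1
    rw [ce1, dir1]
    simp only [Prod.smul_mk, smul_eq_mul, Prod.mk_add_mk, mul_one, mul_zero, add_zero,
      Sum.inl.injEq, Prod.mk.injEq, true_and]
    omega
  · show Sum.inr (x - (e : ℤ) + ((e - 1 - σ : ℕ) : ℤ), y - 1) = ce ((x, y) + (σ : ℤ) • dir 2) 2
    rw [ce2, dir2]
    simp only [Prod.smul_mk, smul_eq_mul, Prod.mk_add_mk, mul_one, mul_zero, add_zero,
      Sum.inr.injEq, Prod.mk.injEq, and_true, mul_neg]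
    omega
  · show Sum.inl (x - 1, y - (e : ℤ) + ((e - 1 - σ : ℕ) : ℤ)) = ce ((x, y) + (σ : ℤ) • dir 3) 3
    rw [ce3, dir3]
    simp only [Prod.smul_mk, smul_eq_mul, Prod.mk_add_mk, mul_one, mul_zero, add_zero,
      Sum.inl.injEq, Prod.mk.injEq, true_and, mul_neg]
    omega

/-- The phase inside at the step `σ`. -/
noncomputable def sPh (a : ℝ) (t0 : Option ℕ) (σ : ℕ) : ℝ :=
  a - t0.elim 0 fun τ => if τ ≤ σ then Real.pi / 3 else 0

theorem sw_u (z : ℤ × ℤ) (r : Fin 4) {s e σ : ℕ} (a : ℝ) (t0 : Option ℕ) (h1 : s ≤ σ)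
    (h2 : σ < e) : (sideWall z r s e a t0).u (idx r s e σ) = fPh r (sPh a t0 σ) false ∧
    (sideWall z r s e a t0).u (idx r s e σ) + (sideWall z r s e a t0).J =
      fPh r (sPh a t0 σ) true := by
  rcases t0 with _ | τ
  · fin_cases r
    · show (a - Real.pi / 6 + if 0 ≤ σ - s then ((0 : ℤ) : ℝ) * (Real.pi / 3) else 0) =
          fPh 0 (a - 0) false ∧
        (a - Real.pi / 6 + if 0 ≤ σ - s then ((0 : ℤ) : ℝ) * (Real.pi / 3) else 0) +
          (if true = true then Real.pi / 6 else -(Real.pi / 6)) = fPh 0 (a - 0) true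
      rw [(fPh0 _).1, (fPh0 _).2, if_pos (Nat.zero_le _), if_pos rfl]
      push_cast
      constructor <;> ring
    · show (a + if 0 ≤ σ - s then ((0 : ℤ) : ℝ) * (Real.pi / 3) else 0) =
          fPh 1 (a - 0) false ∧
        (a + if 0 ≤ σ - s then ((0 : ℤ) : ℝ) * (Real.pi / 3) else 0) +
          (if false = true then Real.pi / 6 else -(Real.pi / 6)) = fPh 1 (a - 0) true
      rw [(fPh1 _).1, (fPh1 _).2, if_pos (Nat.zero_le _), if_neg Bool.false_ne_true]
      push_cast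
      constructor <;> ring
    · show (a - 0 + if 0 ≤ e - 1 - σ then ((0 : ℤ) : ℝ) * (Real.pi / 3) else 0) =
          fPh 2 (a - 0) false ∧
        (a - 0 + if 0 ≤ e - 1 - σ then ((0 : ℤ) : ℝ) * (Real.pi / 3) else 0) +
          (if false = true then Real.pi / 6 else -(Real.pi / 6)) = fPh 2 (a - 0) true
      rw [(fPh2 _).1, (fPh2 _).2, if_pos (Nat.zero_le _), if_neg Bool.false_ne_true]
      push_cast
      constructor <;> ring
    · show (a - Real.pi / 6 - 0 + if 0 ≤ e - 1 - σ then ((0 : ℤ) : ℝ) * (Real.pi / 3) else 0) =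
          fPh 3 (a - 0) false ∧
        (a - Real.pi / 6 - 0 + if 0 ≤ e - 1 - σ then ((0 : ℤ) : ℝ) * (Real.pi / 3) else 0) +
          (if true = true then Real.pi / 6 else -(Real.pi / 6)) = fPh 3 (a - 0) true
      rw [(fPh3 _).1, (fPh3 _).2, if_pos (Nat.zero_le _), if_pos rfl]
      push_cast
      constructor <;> ring
  · fin_cases r
    · show ((a - Real.pi / 6 + if τ - s ≤ σ - s then ((-1 : ℤ) : ℝ) * (Real.pi / 3) else 0) =
          fPh 0 (a - if τ ≤ σ then Real.pi / 3 else 0) false ∧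
        (a - Real.pi / 6 + if τ - s ≤ σ - s then ((-1 : ℤ) : ℝ) * (Real.pi / 3) else 0) +
          (if true = true then Real.pi / 6 else -(Real.pi / 6)) =
          fPh 0 (a - if τ ≤ σ then Real.pi / 3 else 0) true)
      have h3 : τ - s ≤ σ - s ↔ τ ≤ σ := by omega
      rw [(fPh0 _).1, (fPh0 _).2, if_congr h3 rfl rfl, if_pos rfl]
      push_cast
      by_cases h : τ ≤ σ
      · rw [if_pos h, if_pos h]; constructor <;> ring
      · rw [if_neg h, if_neg h]; constructor <;> ring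
    · show ((a + if τ - s ≤ σ - s then ((-1 : ℤ) : ℝ) * (Real.pi / 3) else 0) =
          fPh 1 (a - if τ ≤ σ then Real.pi / 3 else 0) false ∧
        (a + if τ - s ≤ σ - s then ((-1 : ℤ) : ℝ) * (Real.pi / 3) else 0) +
          (if false = true then Real.pi / 6 else -(Real.pi / 6)) =
          fPh 1 (a - if τ ≤ σ then Real.pi / 3 else 0) true)
      have h3 : τ - s ≤ σ - s ↔ τ ≤ σ := by omega
      rw [(fPh1 _).1, (fPh1 _).2, if_congr h3 rfl rfl, if_neg Bool.false_ne_true]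
      push_cast
      by_cases h : τ ≤ σ
      · rw [if_pos h, if_pos h]; constructor <;> ring
      · rw [if_neg h, if_neg h]; constructor <;> ring
    · show ((a - Real.pi / 3 + if e - τ ≤ e - 1 - σ then ((1 : ℤ) : ℝ) * (Real.pi / 3) else 0) =
          fPh 2 (a - if τ ≤ σ then Real.pi / 3 else 0) false ∧
        (a - Real.pi / 3 + if e - τ ≤ e - 1 - σ then ((1 : ℤ) : ℝ) * (Real.pi / 3) else 0) +
          (if false = true then Real.pi / 6 else -(Real.pi / 6)) =
          fPh 2 (a - if τ ≤ σ then Real.pi / 3 else 0) true)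
      have h3 : e - τ ≤ e - 1 - σ ↔ ¬ τ ≤ σ := by omega
      rw [(fPh2 _).1, (fPh2 _).2, if_congr h3 rfl rfl, if_neg Bool.false_ne_true]
      push_cast
      by_cases h : τ ≤ σ
      · rw [if_neg (not_not.2 h), if_pos h]; constructor <;> ring
      · rw [if_pos h, if_neg h]; constructor <;> ring
    · show ((a - Real.pi / 6 - Real.pi / 3 +
          if e - τ ≤ e - 1 - σ then ((1 : ℤ) : ℝ) * (Real.pi / 3) else 0) =
          fPh 3 (a - if τ ≤ σ then Real.pi / 3 else 0) false ∧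
        (a - Real.pi / 6 - Real.pi / 3 +
          if e - τ ≤ e - 1 - σ then ((1 : ℤ) : ℝ) * (Real.pi / 3) else 0) +
          (if true = true then Real.pi / 6 else -(Real.pi / 6)) =
          fPh 3 (a - if τ ≤ σ then Real.pi / 3 else 0) true)
      have h3 : e - τ ≤ e - 1 - σ ↔ ¬ τ ≤ σ := by omega
      rw [(fPh3 _).1, (fPh3 _).2, if_congr h3 rfl rfl, if_pos rfl]
      push_cast
      by_cases h : τ ≤ σ
      · rw [if_neg (not_not.2 h), if_pos h]; constructor <;> ring
      · rw [if_pos h, if_neg h]; constructor <;> ring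

end Vale.Agent.P167.Enl
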