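import Vale.Agent.P167.XDL.Geo

/-!
# P167, block XDL: geometry of the polygon with holes (proof of `GEO`)
-/

namespace Vale.Agent.P167.Enl

open Finset Filter
open Vale.Agent.P167.E6 (IsPolygon Encloses dir face)
open Vale.Agent.P167.H825 (dirOf tn enl pdir ptau Wall WC Marks rnd bsite sideWall pwall PW dv epos
  FlowIn)
open Vale.Agent.P167.BR (ce be ce0 ce1 ce2 ce3 be_injective ce_even ce_odd be_bd be_even be_odd eds
  mem_eds exists_be)
open Vale.Agent.P167.XDL (bS mem_bS Gau)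
open Vale.Agent.P167.H662 (PF fwall hsite tsite Bdy Ray os GeoAt GEO col)

variable {l : ℕ} {p : ZMod l → ℤ × ℤ} {n : ℕ} {S₀ : Finset (ℤ × ℤ)} {Q : Marks} {d : ℕ}

/-- The sides of a polygon are different. -/
theorem sides_ne (hp : IsPolygon p) {i i' : ℕ} (hi : i < l) (hi' : i' < l) (hne : i ≠ i') :
    ¬ (p (i : ℕ) = p (i' : ℕ) ∧ pdir p i = pdir p i') ∧
    ¬ (p (i' : ℕ) = p (i : ℕ) + dir (pdir p i) ∧ p (i : ℕ) = p (i' : ℕ) + dir (pdir p i')) := by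
  constructor
  · rintro ⟨h, -⟩
    have h1 := hp.2.1 h
    rw [ZMod.natCast_eq_natCast_iff'] at h1
    rw [Nat.mod_eq_of_lt hi, Nat.mod_eq_of_lt hi'] at h1
    exact hne h1
  · rintro ⟨h1, h2⟩
    rw [← pdir_step hp] at h1 h2
    have h3 := hp.2.1 h1
    have h4 := hp.2.1 h2
    have h5 : ((2 : ℕ) : ZMod l) = 0 := by
      push_cast
      linear_combination -h3 - h4
    rw [ZMod.natCast_eq_zero_iff] at h5
    have := Nat.le_of_dvd (by norm_num) h5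
    have := hp.1
    omega

/-- Points of different sides. -/
theorem sides_dist (hp : IsPolygon p) {i i' : ℕ} (hi : i < l) (hi' : i' < l) (hne : i ≠ i')
    {j j' κ : ℤ} (hj' : 0 ≤ j') (hj1' : j' ≤ n) (k1 : κ ≤ j) (k2 : κ ≤ n - j) (hn : κ ≤ n) :
    κ ≤ nm ((n : ℤ) • p (i : ℕ) + j • dir (pdir p i) -
      ((n : ℤ) • p (i' : ℕ) + j' • dir (pdir p i'))) :=
  side_dist hj' hj1' (sides_ne hp hi hi' hne).1 (sides_ne hp hi hi' hne).2 k1 k2 hn

theorem verts_dist {a a' : ℤ × ℤ} (h : a ≠ a') : (n : ℤ) ≤ nm ((n : ℤ) • a - (n : ℤ) • a') := by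
  obtain ⟨X, Y⟩ := a
  obtain ⟨X', Y'⟩ := a'
  apply le_nm
  simp only [Prod.smul_mk, smul_eq_mul, Prod.mk_sub_mk]
  by_cases hX : X = X'
  · refine orY (axF n le_rfl fun hY => h (by rw [hX, hY]))
  · exact orX (axF n le_rfl hX)

section marks

variable (hQ : Q.Ok)
include hQ

theorem theta_nonneg (i : ℕ) {j : ℕ} (hj : j ≤ Q.m + 1) : 0 ≤ Q.θ i j := by
  rw [← hQ.zero i]
  exact theta_mono hQ i (Nat.zero_le _) hj

theorem theta_le_one (i : ℕ) {j : ℕ} (hj : j ≤ Q.m + 1) : Q.θ i j ≤ 1 := by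
  rw [← hQ.one i]
  exact theta_mono hQ i hj le_rfl

/-- Rounded positions. -/
theorem fl (n : ℕ) (i : ℕ) {j : ℕ} (hj : j ≤ Q.m + 1) :
    (⌊Q.θ i j * n⌋₊ : ℝ) ≤ Q.θ i j * n ∧ Q.θ i j * n < ⌊Q.θ i j * n⌋₊ + 1 ∧
      ⌊Q.θ i j * n⌋₊ ≤ n := by
  have h0 := theta_nonneg hQ i hj
  have h1 := theta_le_one hQ i hj
  have hn : (0 : ℝ) ≤ n := by positivity
  refine ⟨Nat.floor_le (by positivity), Nat.lt_floor_add_one _, ?_⟩
  have : (⌊Q.θ i j * n⌋₊ : ℝ) ≤ n := (Nat.floor_le (by positivity)).trans (by nlinarith)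
  exact_mod_cast this

theorem fl_zero (n : ℕ) (i : ℕ) : ⌊Q.θ i 0 * n⌋₊ = 0 := by
  rw [hQ.zero, zero_mul, Nat.floor_zero]

theorem fl_one (n : ℕ) (i : ℕ) : ⌊Q.θ i (Q.m + 1) * n⌋₊ = n := by
  rw [hQ.one, one_mul, Nat.floor_natCast]

variable {κ : ℝ} (hκ : ∀ i < l, ∀ j ≤ Q.m, κ ≤ Q.θ i (j + 1) - Q.θ i j)
include hκ

theorem theta_gap {i : ℕ} (hi : i < l) {j j' : ℕ} (h : j < j') (h' : j' ≤ Q.m + 1) :
    κ ≤ Q.θ i j' - Q.θ i j := by
  have h1 := hκ i hi j (by omega)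
  have h2 := theta_mono hQ i (show j + 1 ≤ j' by omega) h'
  linarith

/-- Distance of a mark which is not a vertex from the vertices. -/
theorem mark_far {i : ℕ} (hi : i < l) {j : ℕ} (hj : 1 ≤ j) (hj' : j ≤ Q.m) :
    ⌊κ * n⌋ - 1 ≤ (⌊Q.θ i j * n⌋₊ : ℤ) ∧ ⌊κ * n⌋ - 1 ≤ n - (⌊Q.θ i j * n⌋₊ : ℤ) := by
  have h1 := theta_gap hQ hκ hi (show 0 < j by omega) (by omega)
  have h2 := theta_gap hQ hκ hi (show j < Q.m + 1 by omega) le_rfl
  rw [hQ.zero] at h1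
  rw [hQ.one] at h2
  obtain ⟨h3, h4, -⟩ := fl hQ n i (show j ≤ Q.m + 1 by omega)
  have hn : (0 : ℝ) ≤ n := by positivity
  have h5 := Int.floor_le (κ * n)
  constructor
  · have : ((⌊κ * n⌋ - 1 : ℤ) : ℝ) ≤ ((⌊Q.θ i j * n⌋₊ : ℤ) : ℝ) := by
      push_cast
      nlinarith
    exact_mod_cast this
  · have : ((⌊κ * n⌋ - 1 : ℤ) : ℝ) ≤ ((n - (⌊Q.θ i j * n⌋₊ : ℤ) : ℤ) : ℝ) := by
      push_cast
      nlinarith
    exact_mod_cast this

/-- Two holes. -/
theorem hsite_far (hp : IsPolygon p) (hk1 : κ ≤ 1) {x y : Fin l × Fin (Q.m + 1)} (hxy : x ≠ y) :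
    κ * n - 2 ≤ (nm (hsite p Q n x - hsite p Q n y) : ℝ) := by
  have hn : (0 : ℝ) ≤ n := by positivity
  have key : (⌊κ * n⌋ - 1 : ℤ) ≤ nm (hsite p Q n x - hsite p Q n y) := by
    obtain ⟨⟨i, hi⟩, ⟨j, hj⟩⟩ := x
    obtain ⟨⟨i', hi'⟩, ⟨j', hj'⟩⟩ := y
    unfold hsite
    simp only
    have hfl := Int.floor_le (κ * n)
    have hkn : (⌊κ * n⌋ - 1 : ℤ) ≤ n := by
      have : ((⌊κ * n⌋ - 1 : ℤ) : ℝ) ≤ ((n : ℤ) : ℝ) := by
        push_cast
        nlinarith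
      exact_mod_cast this
    by_cases h : i = i'
    · subst h
      have hjj : j ≠ j' := fun h => hxy (by subst h; rfl)
      rw [add_sub_add_left_eq_sub, ← sub_smul, nm_dir]
      rw [le_abs]
      obtain ⟨h3, h4, -⟩ := fl hQ n i (show j ≤ Q.m + 1 by omega)
      obtain ⟨h5, h6, -⟩ := fl hQ n i (show j' ≤ Q.m + 1 by omega)
      rcases lt_or_gt_of_ne hjj with h | h
      · right
        have h1 := theta_gap hQ hκ hi h (by omega)
        have : ((⌊κ * n⌋ - 1 : ℤ) : ℝ) ≤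
            ((-((⌊Q.θ i j * n⌋₊ : ℤ) - (⌊Q.θ i j' * n⌋₊ : ℤ)) : ℤ) : ℝ) := by
          push_cast
          nlinarith
        exact_mod_cast this
      · left
        have h1 := theta_gap hQ hκ hi h (by omega)
        have : ((⌊κ * n⌋ - 1 : ℤ) : ℝ) ≤
            ((((⌊Q.θ i j * n⌋₊ : ℤ) - (⌊Q.θ i j' * n⌋₊ : ℤ)) : ℤ) : ℝ) := by
          push_cast
          nlinarith
        exact_mod_cast this
    · by_cases h1 : 1 ≤ j
      · have h2 := mark_far (n := n) hQ hκ hi h1 (by omega)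
        exact sides_dist hp hi hi' h (by positivity)
          (by exact_mod_cast (fl hQ n i' (show j' ≤ Q.m + 1 by omega)).2.2) h2.1 h2.2 hkn
      · by_cases h1' : 1 ≤ j'
        · have h2 := mark_far (n := n) hQ hκ hi' h1' (by omega)
          rw [nm_sub_comm]
          exact sides_dist hp hi' hi (Ne.symm h) (by positivity)
            (by exact_mod_cast (fl hQ n i (show j ≤ Q.m + 1 by omega)).2.2) h2.1 h2.2 hkn
        · have e1 : j = 0 := by omega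
          have e2 : j' = 0 := by omega
          subst e1 e2
          rw [fl_zero hQ, fl_zero hQ]
          simp only [Nat.cast_zero, zero_smul, add_zero]
          refine hkn.trans (verts_dist fun h2 => h ?_)
          have h1 := hp.2.1 h2
          rw [ZMod.natCast_eq_natCast_iff'] at h1
          rwa [Nat.mod_eq_of_lt hi, Nat.mod_eq_of_lt hi'] at h1
  have h1 : ((⌊κ * n⌋ - 1 : ℤ) : ℝ) ≤ (nm (hsite p Q n x - hsite p Q n y) : ℝ) := by
    exact_mod_cast key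
  push_cast at h1
  have := Int.sub_one_lt_floor (κ * n)
  linarith

omit hκ in
/-- A hole and the base site. -/
theorem hsite_farb (hp : IsPolygon p) (hκ : ∀ j ≤ Q.m + 1, κ ≤ |Q.θ 0 j - Q.tp|)
    (x : Fin l × Fin (Q.m + 1)) :
    κ * n - 2 ≤ (nm (hsite p Q n x - bsite p Q n) : ℝ) := by
  have hn : (0 : ℝ) ≤ n := by positivity
  have t0 := hQ.tp0
  have t1 := hQ.tp1
  have f1 : (⌊Q.tp * n⌋₊ : ℝ) ≤ Q.tp * n := Nat.floor_le (by positivity)
  have f2 : Q.tp * n < ⌊Q.tp * n⌋₊ + 1 := Nat.lt_floor_add_one _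
  have k0 : κ ≤ Q.tp := by
    have := hκ 0 (by omega)
    rwa [hQ.zero, zero_sub, abs_neg, abs_of_pos t0] at this
  have k1 : κ ≤ 1 - Q.tp := by
    have := hκ (Q.m + 1) le_rfl
    rwa [hQ.one, abs_of_pos (by linarith)] at this
  have hfl := Int.floor_le (κ * n)
  have key : (⌊κ * n⌋ - 1 : ℤ) ≤ nm (hsite p Q n x - bsite p Q n) := by
    obtain ⟨⟨i, hi⟩, ⟨j, hj⟩⟩ := x
    unfold hsite bsite
    simp only
    by_cases h : i = 0
    · subst h
      rw [Nat.cast_zero, add_sub_add_left_eq_sub, ← sub_smul, nm_dir, le_abs]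
      obtain ⟨h3, h4, -⟩ := fl hQ n 0 (show j ≤ Q.m + 1 by omega)
      have h5 := hκ j (by omega)
      rw [le_abs] at h5
      rcases h5 with h5 | h5
      · left
        have : ((⌊κ * n⌋ - 1 : ℤ) : ℝ) ≤
            ((((⌊Q.θ 0 j * n⌋₊ : ℤ) - (⌊Q.tp * n⌋₊ : ℤ)) : ℤ) : ℝ) := by
          push_cast
          nlinarith
        exact_mod_cast this
      · right
        have : ((⌊κ * n⌋ - 1 : ℤ) : ℝ) ≤
            ((-((⌊Q.θ 0 j * n⌋₊ : ℤ) - (⌊Q.tp * n⌋₊ : ℤ)) : ℤ) : ℝ) := by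
          push_cast
          nlinarith
        exact_mod_cast this
    · rw [nm_sub_comm]
      have := sides_dist (n := n) hp (i := 0) (i' := i) (by omega) hi (Ne.symm h)
        (j := (⌊Q.tp * n⌋₊ : ℤ)) (j' := (⌊Q.θ i j * n⌋₊ : ℤ)) (κ := ⌊κ * n⌋ - 1) (by positivity)
        (by exact_mod_cast (fl hQ n i (show j ≤ Q.m + 1 by omega)).2.2)
        (by
          have : ((⌊κ * n⌋ - 1 : ℤ) : ℝ) ≤ ((⌊Q.tp * n⌋₊ : ℤ) : ℝ) := by
            push_cast
            nlinarith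
          exact_mod_cast this)
        (by
          have : ((⌊κ * n⌋ - 1 : ℤ) : ℝ) ≤ ((n - (⌊Q.tp * n⌋₊ : ℤ) : ℤ) : ℝ) := by
            push_cast
            nlinarith
          exact_mod_cast this)
        (by
          have : ((⌊κ * n⌋ - 1 : ℤ) : ℝ) ≤ ((n : ℤ) : ℝ) := by
            push_cast
            nlinarith
          exact_mod_cast this)
      rwa [Nat.cast_zero] at this
  have h1 : ((⌊κ * n⌋ - 1 : ℤ) : ℝ) ≤ (nm (hsite p Q n x - bsite p Q n) : ℝ) := by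
    exact_mod_cast key
  push_cast at h1
  have := Int.sub_one_lt_floor (κ * n)
  linarith

end marks

end Vale.Agent.P167.Enl
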