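import Vale.Agent.P167.XDL.Core
import Vale.Agent.P167.XDL.Enl2
import Vale.Agent.P167.H662.StartDefs

/-!
# P167, block START, [VOUT]: the closed polygon, `V_D` times the exterior factor
-/

namespace Vale.Agent.P167.XDL

open Finset MeasureTheory Filter
open Vale.Agent.P167.A (plane plane_nx)
open Vale.Agent.P167.H199 (cang strand ret ah at' hb Xc mem_strand ret_min)
open Vale.Agent.P167.E6 (IsPolygon Encloses dir)
open Vale.Agent.P167.BR
open Vale.Agent.P167.H825 (dv enl WC bsite pdir Marks FlowIn ptau)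
open Vale.Agent.P167.H662 (PF fwall)
open Vale.Agent.P167.Enl (qN uN PN bd_qN encloses_qN isPolygon_qN)

/-- The normalised product over the strands outside `D`. -/
noncomputable def outX (D : Finset (ℤ × ℤ)) (a : Ed → Bool → ℝ) (ω : Cfg) : ℝ :=
  (√3)⁻¹ ^ ((bS D).filter fun e => hdv e ∉ D).card * Xout D a ω

theorem outX_eq (D : Finset (ℤ × ℤ)) (a : Ed → Bool → ℝ) (ω : Cfg) :
    outX D a ω = ∏ e ∈ (bS D).filter (fun e => hdv e ∉ D),
      (√3)⁻¹ * (2 * Real.cos (cang plane (Real.pi / 3) a ω (strand (nx ω) (bS D) e))) := by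
  unfold outX Xout
  symm
  rw [prod_mul_distrib (f := fun _ => (√3)⁻¹), prod_const]

/-- The exterior strands do not visit `D`. -/
theorem strand_out {D : Finset (ℤ × ℤ)} {ω : Cfg} {e : Ed} (he : hdv e ∉ D) {k : ℕ}
    (hk : k < ret (nx ω) (bS D) e) : hdv ((nx ω)^[k] e) ∉ D := by
  induction k with
  | zero => exact he
  | succ k ih =>
    have h1 := ih (by omega)
    have h2 : (nx ω)^[k + 1] e ∉ bS D := ret_min (by omega) hk
    rw [mem_bS] at h2
    have h3 : tlv ((nx ω)^[k + 1] e) ∉ D := by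
      rw [Function.iterate_succ_apply', tlv_nx]; exact h1
    tauto

/-- The exterior product only depends on the phases of the edges which are not inside `D`. -/
theorem Xout_congr_ph {D : Finset (ℤ × ℤ)} {a a' : Ed → Bool → ℝ}
    (h : ∀ x, (hdv x ∉ D ∨ tlv x ∉ D) → a x = a' x) (ω : Cfg) : Xout D a ω = Xout D a' ω := by
  unfold Xout
  refine prod_congr rfl fun e he => ?_
  rw [mem_filter] at he
  congr 2
  unfold cang
  refine sum_congr rfl fun x hx => ?_
  obtain ⟨k, hk, rfl⟩ := mem_strand.1 hx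
  have h1 := strand_out (ω := ω) he.2 hk
  have h2 : a ((nx ω)^[k] e) = a' ((nx ω)^[k] e) := h _ (Or.inl h1)
  have h3 : a (plane.nx ω ((nx ω)^[k] e)) = a' (plane.nx ω ((nx ω)^[k] e)) := by
    apply h
    right
    rw [plane_nx, tlv_nx]
    exact h1
  unfold ah at'
  rw [h2, h3]

section

variable {ι : Type} [Fintype ι] {n : ℕ} {q : ZMod n → ℤ × ℤ} {D : Finset (ℤ × ℤ)} {u : ℕ → ℤ}
  {K : ℝ}

/-- The closed cut polygon. -/
theorem WC_X_eq (hq : IsPolygon q) (hD : Encloses q D)
    (hu : H871.Bd (D : Set (ℤ × ℤ)) n (fun k => q (k : ZMod n)) u 1) {W W0 : WC ι}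
    (hS : W.S = bS D) (hw : W0.w = W.w) (hc0 : W0.c = 0) (hg : Gau q D u W.ph W.c K) (ω : Cfg) :
    W.X ω = XD D (q 0) (dv W.c) ω * outX D W0.ph ω := by
  unfold WC.X
  rw [hS, xdl hq hD hu hg ω]
  have h1 : Xout D W.ph ω = Xout D W0.ph ω := by
    apply Xout_congr_ph
    intro x hx
    have h2 : W.c x = 0 := by
      by_contra h
      have := hg.sup x h
      tauto
    funext b
    unfold WC.ph
    rw [h2, hw, hc0]
    simp
  have h3 : (bS D).card = ((bS D).filter fun e => hdv e ∈ D).card +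
      ((bS D).filter fun e => hdv e ∉ D).card := by
    rw [card_filter_add_card_filter_not]
  have h4 : (√3 : ℝ) ≠ 0 := by positivity
  unfold outX
  rw [h1, h3, pow_add]
  have h5 : (√3)⁻¹ ^ ((bS D).filter fun e => hdv e ∈ D).card *
      √3 ^ ((bS D).filter fun e => hdv e ∈ D).card = 1 := by
    rw [← mul_pow, inv_mul_cancel₀ h4, one_pow]
  linear_combination (XD D (q 0) (dv W.c) ω * ((√3)⁻¹ ^ ((bS D).filter fun e => hdv e ∉ D).card) *
    Xout D W0.ph ω) * h5

end

end Vale.Agent.P167.XDL
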