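import Vale.Agent.P167.XDL.VoutDefs
import Vale.Agent.P167.XDL.EnlS
import Vale.Agent.P167.XDL.Int
import Vale.Agent.P167.H662.Ncc

/-!
# P167, block START, [VOUT]: assembly
-/

namespace Vale.Agent.P167.XDL

open Finset MeasureTheory Filter
open Vale.Agent.P145.FB (PConn)
open Vale.Agent.P153 Vale.Agent.P153.Topo
open Vale.Agent.P167.A (plane plane_nx)
open Vale.Agent.P167.H199 (cang strand ret ah at' Returns)
open Vale.Agent.P167.E6 (IsPolygon Encloses)
open Vale.Agent.P167.BR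
open Vale.Agent.P167.H632 (cs)
open Vale.Agent.P167.H166 (bxx mem_bxx)
open Vale.Agent.P167.H825 (dv enl WC bsite pdir Marks FlowIn)
open Vale.Agent.P167.H662 (PF col NCc FlatD NoOrb_of_NCc VOUT)
open Vale.Agent.P167.H166N (OutEv V4)
open Vale.Agent.P167.Enl

/-- An orbit which stays in a ball is periodic. -/
theorem returns_of_bdd {S : Finset Ed} {ω : Cfg} {e : Ed} (he : e ∈ S) {x0 : ℤ × ℤ} {R : ℤ}
    (h : ∀ k, nm (hdv ((nx ω)^[k] e) - x0) ≤ R) : Returns (nx ω) S e := by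
  have hinj : Function.Injective (nx ω) := (s_nx ω).1
  have hfin : ¬ Function.Injective fun k : ℕ => (⟨(nx ω)^[k] e,
      mem_eds.2 (Or.inl (mem_bxx.2 (h k)))⟩ : eds (bxx x0 R)) := fun hi =>
    not_injective_infinite_finite _ hi
  rw [Function.Injective] at hfin
  push Not at hfin
  obtain ⟨i, j, hij, hne⟩ := hfin
  rw [Subtype.mk.injEq] at hij
  have key : ∀ i j : ℕ, i < j → (nx ω)^[i] e = (nx ω)^[j] e → Returns (nx ω) S e := by
    intro i j hlt hij
    refine ⟨j - i, by omega, ?_⟩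
    have h1 : (nx ω)^[i] ((nx ω)^[j - i] e) = (nx ω)^[i] e := by
      rw [← Function.iterate_add_apply, hij]
      congr 1
      omega
    rw [hinj.iterate i h1]
    exact he
  rcases lt_or_gt_of_ne hne with h1 | h1
  · exact key i j h1 hij
  · exact key j i h1 hij.symm

theorem strand_of_not {S : Finset Ed} {ω : Cfg} {e : Ed} (h : ¬ Returns (nx ω) S e) :
    strand (nx ω) S e = ∅ := by
  have h1 : ret (nx ω) S e = 0 := by
    unfold ret
    have : {k | 1 ≤ k ∧ (nx ω)^[k] e ∈ S} = ∅ := by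
      rw [Set.eq_empty_iff_forall_notMem]
      exact fun k hk => h ⟨k, hk⟩
    rw [this, Nat.sInf_empty]
  unfold strand
  rw [h1]
  simp

section

variable {n : ℕ} {q : ZMod n → ℤ × ℤ} {D : Finset (ℤ × ℤ)} {u : ℕ → ℤ}
  {a : Ed → Bool → ℝ} {K : ℝ}

theorem outX_nonneg (h3 : V3) (hq : IsPolygon q) (hD : Encloses q D)
    (hu : H871.Bd (D : Set (ℤ × ℤ)) n (fun k => q (k : ZMod n)) u 1) (hg : GauO q D u a K)
    (ω : Cfg) : 0 ≤ outX D a ω := by
  rw [outX_eq]
  refine prod_nonneg fun e he => ?_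
  rw [mem_filter] at he
  by_cases hr : Returns (nx ω) (bS D) e
  · rcases (h3 n q D u a K hq hD hu hg ω e he.1 he.2 hr).1 with h | h <;> rw [h]
    · simp
    · positivity
  · rw [strand_of_not hr]
    simp only [cang, sum_empty, Real.cos_zero]
    positivity

theorem outX_one (h3 : V3) (hq : IsPolygon q) (hD : Encloses q D)
    (hu : H871.Bd (D : Set (ℤ × ℤ)) n (fun k => q (k : ZMod n)) u 1) (hg : GauO q D u a K)
    {ω : Cfg} {x0 : ℤ × ℤ} {R1 R2 : ℤ} (hR : ∀ v ∈ D, nm (v - x0) + 2 ≤ R1) (h12 : R1 < R2)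
    (hω : ω ∈ OutEv D (q 0) x0 R1 R2) : outX D a ω = 1 := by
  rw [outX_eq]
  refine prod_eq_one fun e he => ?_
  rw [mem_filter] at he
  have hno := NoOrb_of_NCc (c := col (q 0)) (x := x0) (r := R1 - 1) (R := R2) (ω := ω) (by omega)
    (by rw [sub_add_cancel]; exact hω.2)
  have hb := he.1
  rw [mem_bS] at hb
  have ht : tlv e ∈ D := by tauto
  have h1 : nm (hdv e - x0) ≤ R1 - 1 := by
    have h2 := hR _ ht
    have h5 := hdv_near e
    have k1 : nm (tlv e - x0) ≤ R1 - 2 := by omega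
    rw [H632.nm_le] at k1 ⊢
    simp only [Prod.fst_sub, Prod.snd_sub] at *
    omega
  have hr : Returns (nx ω) (bS D) e := returns_of_bdd he.1 (x0 := x0) (R := R2) fun k =>
    (hno e k).1 h1
  rw [(h3 n q D u a K hq hD hu hg ω e he.1 he.2 hr).2 x0 R1 R2 hR h12 hω]
  exact inv_mul_cancel₀ (by positivity)

theorem int_outX : Integrable (outX D a) μ := int_Xout.const_mul _

theorem outEv_le (h3 : V3) (hq : IsPolygon q) (hD : Encloses q D)
    (hu : H871.Bd (D : Set (ℤ × ℤ)) n (fun k => q (k : ZMod n)) u 1) (hg : GauO q D u a K)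
    {x0 : ℤ × ℤ} {R1 R2 : ℤ} (hR : ∀ v ∈ D, nm (v - x0) + 2 ≤ R1) (h12 : R1 < R2) :
    μ.real (OutEv D (q 0) x0 R1 R2) ≤ ∫ ω, outX D a ω ∂μ := by
  have hP := H871.fair_mu.prob
  have h1 := mul_meas_ge_le_integral_of_nonneg (μ := μ) (f := outX D a)
    (Eventually.of_forall fun ω => outX_nonneg h3 hq hD hu hg ω) int_outX 1
  rw [one_mul] at h1
  refine le_trans (measureReal_mono fun ω hω => ?_) h1
  show 1 ≤ outX D a ω
  rw [outX_one h3 hq hD hu hg hR h12 hω]

end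

section

variable {l : ℕ} {p : ZMod l → ℤ × ℤ} {n : ℕ} {S₀ : Finset (ℤ × ℤ)} {Q : Marks}

theorem flow_zero {D : Finset (ℤ × ℤ)} {κ : ℝ} {n : ℕ} : FlowIn D κ 0 n 0 := by
  refine ⟨fun e he => absurd rfl he, fun e => by simp, fun z => ?_⟩
  simp [H825.dv]

theorem gauO_PF (hp : IsPolygon p) (hD : Encloses p S₀) (hQ : Q.Ok) (hn : 0 < n) :
    GauO (qN p n (tB n Q)) (enl S₀ n) (uN p n (tB n Q)) (PF p Q n 0).ph
      (-(Real.pi / 12 * ((pdir p 0).val : ℕ))) := by
  have h1 : (1 : ℝ) ≤ 1 * n := by rw [one_mul]; exact_mod_cast hn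
  refine ⟨fun k hk => (out_PF hp hD hQ hn flow_zero h1 hk).1,
    fun k hk => (out_PF hp hD hQ hn flow_zero h1 hk).2, fun e he => ?_⟩
  rw [← PF_S hp hD hQ hn 0] at he
  unfold ah at'
  rw [Wls.ph_off he, Wls.ph_off he]
  show (0 : ℝ) / 2 * _ + 0 / 2 * _ = 0
  simp

end

/-- **[VOUT]** from the outer weights and the lower bound of the exterior event. -/
theorem vout_of (h3 : V3) (h4 : V4) : VOUT := by
  intro l _ p S₀ hp hS Q hQ
  refine ⟨fun n => ∫ ω, outX (enl S₀ n) (PF p Q n 0).ph ω ∂μ, ?_, ?_⟩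
  · intro κ B hκ
    filter_upwards [eventually_gt_atTop 0, eventually_ge_atTop ⌈κ⁻¹⌉₊] with n hn hκn c hc
    have h1 : 1 ≤ κ * n := by
      have := Nat.ceil_le.1 hκn
      rw [inv_le_iff_one_le_mul₀ hκ] at this
      exact this.trans_eq (by ring)
    have hq := isPolygon_qN hn hp (tB n Q)
    have hE := encloses_qN hn hp hS (tB n Q)
    have hu := bd_qN hn hp hS (tB_lt hQ hn)
    have hX : ∀ ω, (PF p Q n c).X ω = XD (enl S₀ n) (qN p n (tB n Q) 0) (dv c) ω *
        outX (enl S₀ n) (PF p Q n 0).ph ω := fun ω =>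
      WC_X_eq hq hE hu (W := PF p Q n c) (W0 := PF p Q n 0) (PF_S hp hS hQ hn c) rfl rfl
        (gau_PF hp hS hQ hn hc h1) ω
    simp only [hX]
    rw [qN_zero hp hQ hn]
    unfold outX
    rw [integral_const_mul]
    have : (fun ω => XD (enl S₀ n) (bsite p Q n) (dv c) ω *
        ((√3)⁻¹ ^ ((bS (enl S₀ n)).filter fun e => hdv e ∉ enl S₀ n).card *
          Xout (enl S₀ n) (PF p Q n 0).ph ω)) = fun ω =>
        ((√3)⁻¹ ^ ((bS (enl S₀ n)).filter fun e => hdv e ∉ enl S₀ n).card) *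
        (XD (enl S₀ n) (bsite p Q n) (dv c) ω * Xout (enl S₀ n) (PF p Q n 0).ph ω) := by
      funext ω; ring
    rw [this, integral_const_mul, int_XD_Xout]
    ring
  · intro κ1 hκ1
    obtain ⟨c₀, hc₀, R1, R2, h⟩ := h4 l p S₀ hp hS Q hQ κ1 hκ1
    refine ⟨c₀, hc₀, ?_⟩
    filter_upwards [h, eventually_gt_atTop 0] with n h hn
    obtain ⟨hR, h12, hle⟩ := h
    refine hle.trans ?_
    have hb := qN_zero (n := n) hp hQ hn
    rw [← hb] at hR ⊢
    exact outEv_le h3 (isPolygon_qN hn hp (tB n Q)) (encloses_qN hn hp hS (tB n Q))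
      (bd_qN hn hp hS (tB_lt hQ hn)) (gauO_PF hp hS hQ hn) hR h12

end Vale.Agent.P167.XDL
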