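import Vale.Agent.P167.XDL.Vout
import Vale.Agent.P167.H166N.V4Defs

/-!
# P167, block START, [VOUT]: exact statement of V3 (outer weights)

The exterior event `OutEv` and the lower bound `V4` are in `H166N/V4Defs`.
-/

namespace Vale.Agent.P167.XDL

open Finset MeasureTheory Filter
open Vale.Agent.P153 Vale.Agent.P153.Topo
open Vale.Agent.P167.A (plane)
open Vale.Agent.P167.H199 (cang strand ah at' Returns)
open Vale.Agent.P167.E6 (IsPolygon Encloses)
open Vale.Agent.P167.BR (be)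
open Vale.Agent.P167.H166N (OutEv)

/-- The phases on the outer side of the polygon `q` around `D`, and outside of `D`. -/
structure GauO {n : ℕ} (q : ZMod n → ℤ × ℤ) (D : Finset (ℤ × ℤ)) (u : ℕ → ℤ)
    (a : Ed → Bool → ℝ) (K : ℝ) : Prop where
  hd : ∀ k < n, hdv (be q (k : ZMod n)) ∉ D →
    ah plane a (be q (k : ZMod n)) = Real.pi / 12 * u k + K - Real.pi / 6
  tl : ∀ k < n, tlv (be q (k : ZMod n)) ∉ D →
    at' plane a (be q (k : ZMod n)) = -(Real.pi / 12 * u k + K - Real.pi / 6)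
  off : ∀ e, e ∉ bS D → ah plane a e + at' plane a e = 0

/-- **[V3]** the weights of the outer strands: `0` or `√3`, and all `√3` on the exterior event. -/
def V3 : Prop :=
  ∀ (n : ℕ) (q : ZMod n → ℤ × ℤ) (D : Finset (ℤ × ℤ)) (u : ℕ → ℤ) (a : Ed → Bool → ℝ) (K : ℝ),
    IsPolygon q → Encloses q D → H871.Bd (D : Set (ℤ × ℤ)) n (fun k => q (k : ZMod n)) u 1 →
    GauO q D u a K → ∀ (ω : Cfg) (e : Ed), e ∈ bS D → hdv e ∉ D → Returns (nx ω) (bS D) e →
    (2 * Real.cos (cang plane (Real.pi / 3) a ω (strand (nx ω) (bS D) e)) = 0 ∨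
      2 * Real.cos (cang plane (Real.pi / 3) a ω (strand (nx ω) (bS D) e)) = √3) ∧
    ∀ (x0 : ℤ × ℤ) (R1 R2 : ℤ), (∀ v ∈ D, nm (v - x0) + 2 ≤ R1) → R1 < R2 →
      ω ∈ OutEv D (q 0) x0 R1 R2 →
      2 * Real.cos (cang plane (Real.pi / 3) a ω (strand (nx ω) (bS D) e)) = √3

end Vale.Agent.P167.XDL
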